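import Mathlib
import Vale.Agent.Lib.P071.Defs
import Vale.Agent.Lib.P071.Ode

namespace Vale.Agent.Lib.P071.LR

open Set MeasureTheory Real Filter Topology
open Vale.Agent.Lib.P071

/-- The two-dimensional variational hypothesis on the rectangle `[x₁,x₂] × [y₁,y₂]` with the
separated weight `f x + g y`: `μ` is at most the Rayleigh quotient of every Lipschitz function of
weighted mean zero. -/
def RayleighMin2 (x₁ x₂ y₁ y₂ μ : ℝ) (f g : ℝ → ℝ) : Prop :=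
  ∀ (K : NNReal) (v : ℝ × ℝ → ℝ), LipschitzWith K v →
    (∫ x in x₁..x₂, ∫ y in y₁..y₂, (f x + g y) * v (x, y)) = 0 →
    μ * ∫ x in x₁..x₂, ∫ y in y₁..y₂, (f x + g y) * v (x, y) ^ 2
      ≤ ∫ x in x₁..x₂, ∫ y in y₁..y₂,
          (deriv (fun r => v (r, y)) x ^ 2 + deriv (fun r => v (x, r)) y ^ 2)

/-- A twice differentiable solution `u` (with slice derivatives `ux, uxx, uy, uyy`) of
`u_xx + u_yy = -(p x + q y) u` on the rectangle `[x₁,x₂] × [y₁,y₂]` with vanishing normal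
derivative on the four sides. -/
structure RectSol (x₁ x₂ y₁ y₂ : ℝ) (p q : ℝ → ℝ) (u ux uxx uy uyy : ℝ → ℝ → ℝ) : Prop where
  cu : Continuous (fun z : ℝ × ℝ => u z.1 z.2)
  cux : Continuous (fun z : ℝ × ℝ => ux z.1 z.2)
  cuxx : Continuous (fun z : ℝ × ℝ => uxx z.1 z.2)
  cuy : Continuous (fun z : ℝ × ℝ => uy z.1 z.2)
  cuyy : Continuous (fun z : ℝ × ℝ => uyy z.1 z.2)
  dx : ∀ x y, HasDerivAt (fun t => u t y) (ux x y) x
  dxx : ∀ x y, HasDerivAt (fun t => ux t y) (uxx x y) x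
  dy : ∀ x y, HasDerivAt (fun t => u x t) (uy x y) y
  dyy : ∀ x y, HasDerivAt (fun t => uy x t) (uyy x y) y
  pde : ∀ x ∈ Icc x₁ x₂, ∀ y ∈ Icc y₁ y₂, uxx x y + uyy x y = -(p x + q y) * u x y
  nx₁ : ∀ y ∈ Icc y₁ y₂, ux x₁ y = 0
  nx₂ : ∀ y ∈ Icc y₁ y₂, ux x₂ y = 0
  ny₁ : ∀ x ∈ Icc x₁ x₂, uy x y₁ = 0
  ny₂ : ∀ x ∈ Icc x₁ x₂, uy x y₂ = 0

/-- One-dimensional minimality: the quadratic form `∫ (φ'² - P φ²)` is nonnegative on
continuously differentiable functions orthogonal to `X` on `[t₁,t₂]`. -/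
def Min1 (t₁ t₂ : ℝ) (P X : ℝ → ℝ) : Prop :=
  ∀ φ φ' : ℝ → ℝ, (∀ t, HasDerivAt φ (φ' t) t) → Continuous φ' →
    (∫ t in t₁..t₂, φ t * X t) = 0 → 0 ≤ ∫ t in t₁..t₂, (φ' t ^ 2 - P t * φ t ^ 2)

end Vale.Agent.Lib.P071.LR
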