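import Mathlib
import Vale.Agent.Lib.P071.LR.Defs

namespace Vale.Agent.Lib.P071.LR

open Set MeasureTheory Real Filter Topology
open Vale.Agent.Lib.P071

/-- A jointly continuous function is continuous in its first variable. -/
lemma Energy_slice_left {F : ℝ → ℝ → ℝ} (hF : Continuous (fun z : ℝ × ℝ => F z.1 z.2)) (y : ℝ) :
    Continuous (fun x => F x y) :=
  hF.comp (continuous_id.prodMk continuous_const)

/-- A jointly continuous function is continuous in its second variable. -/
lemma Energy_slice_right {F : ℝ → ℝ → ℝ} (hF : Continuous (fun z : ℝ × ℝ => F z.1 z.2)) (x : ℝ) :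
    Continuous (fun y => F x y) :=
  hF.comp (continuous_const.prodMk continuous_id)

/-- Fubini on a rectangle for a jointly continuous function. -/
lemma Energy_swap {F : ℝ → ℝ → ℝ} (hF : Continuous (fun z : ℝ × ℝ => F z.1 z.2))
    (a b c d : ℝ) :
    ∫ y in c..d, ∫ x in a..b, F x y = ∫ x in a..b, ∫ y in c..d, F x y := by
  symm
  apply MeasureTheory.intervalIntegral_intervalIntegral_swap
  have hc : Continuous (Function.uncurry F) := hF
  exact (hc.continuousOn.integrableOn_compact (isCompact_uIcc.prod isCompact_uIcc)).mono_set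
    (Set.prod_mono Set.uIoc_subset_uIcc Set.uIoc_subset_uIcc)

/-- Integration by parts with vanishing boundary terms. -/
lemma Energy_ibp {a b : ℝ} {u u' u'' : ℝ → ℝ} (hd : ∀ t, HasDerivAt u (u' t) t)
    (hd' : ∀ t, HasDerivAt u' (u'' t) t) (hcu : Continuous u) (hcu' : Continuous u')
    (hcu'' : Continuous u'') (ha : u' a = 0) (hb : u' b = 0) :
    ∫ t in a..b, u' t ^ 2 = -∫ t in a..b, u t * u'' t := by
  have hc1 : Continuous (fun t => u' t * u' t) := hcu'.mul hcu'
  have hc2 : Continuous (fun t => u t * u'' t) := hcu.mul hcu''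
  have key : ∫ t in a..b, (u' t * u' t + u t * u'' t) = u b * u' b - u a * u' a :=
    intervalIntegral.integral_eq_sub_of_hasDerivAt (fun t _ => (hd t).mul (hd' t))
      ((hc1.add hc2).intervalIntegrable _ _)
  rw [intervalIntegral.integral_add (hc1.intervalIntegrable _ _) (hc2.intervalIntegrable _ _),
    ha, hb, mul_zero, mul_zero, sub_zero] at key
  have hsq : ∫ t in a..b, u' t ^ 2 = ∫ t in a..b, u' t * u' t := by
    apply intervalIntegral.integral_congr
    intro t _
    exact sq (u' t)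
  rw [hsq]
  linarith

/-- The energy identity of a solution on the rectangle. -/
theorem rect_energy {x₁ x₂ y₁ y₂ : ℝ} (hx : x₁ ≤ x₂) (hy : y₁ ≤ y₂) {p q : ℝ → ℝ}
    (hp : Continuous p) (hq : Continuous q) {r rx rxx ry ryy : ℝ → ℝ → ℝ}
    (h : RectSol x₁ x₂ y₁ y₂ p q r rx rxx ry ryy) :
    (∫ y in y₁..y₂, ∫ x in x₁..x₂, rx x y ^ 2) + (∫ x in x₁..x₂, ∫ y in y₁..y₂, ry x y ^ 2)
      = ∫ x in x₁..x₂, ∫ y in y₁..y₂, (p x + q y) * r x y ^ 2 := by
  have _hp := hp
  have _hq := hq
  have hA : ∀ y ∈ Icc y₁ y₂,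
      ∫ x in x₁..x₂, rx x y ^ 2 = -∫ x in x₁..x₂, r x y * rxx x y := by
    intro y hy'
    exact Energy_ibp (fun t => h.dx t y) (fun t => h.dxx t y) (Energy_slice_left h.cu y)
      (Energy_slice_left h.cux y) (Energy_slice_left h.cuxx y) (h.nx₁ y hy') (h.nx₂ y hy')
  have hB : ∀ x ∈ Icc x₁ x₂,
      ∫ y in y₁..y₂, ry x y ^ 2 = -∫ y in y₁..y₂, r x y * ryy x y := by
    intro x hx'
    exact Energy_ibp (fun t => h.dy x t) (fun t => h.dyy x t) (Energy_slice_right h.cu x)
      (Energy_slice_right h.cuy x) (Energy_slice_right h.cuyy x) (h.ny₁ x hx') (h.ny₂ x hx')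
  have hcxx : Continuous (fun z : ℝ × ℝ => r z.1 z.2 * rxx z.1 z.2) := h.cu.mul h.cuxx
  have hcyy : Continuous (fun z : ℝ × ℝ => r z.1 z.2 * ryy z.1 z.2) := h.cu.mul h.cuyy
  have cont1 : Continuous (fun x => ∫ y in y₁..y₂, r x y * rxx x y) :=
    intervalIntegral.continuous_parametric_intervalIntegral_of_continuous'
      (f := fun x y => r x y * rxx x y) hcxx y₁ y₂
  have cont2 : Continuous (fun x => ∫ y in y₁..y₂, r x y * ryy x y) :=
    intervalIntegral.continuous_parametric_intervalIntegral_of_continuous'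
      (f := fun x y => r x y * ryy x y) hcyy y₁ y₂
  have hs := Energy_swap (F := fun x y => r x y * rxx x y) hcxx x₁ x₂ y₁ y₂
  have h1 : ∫ y in y₁..y₂, ∫ x in x₁..x₂, rx x y ^ 2
      = -∫ x in x₁..x₂, ∫ y in y₁..y₂, r x y * rxx x y := by
    rw [← hs, ← intervalIntegral.integral_neg]
    apply intervalIntegral.integral_congr
    intro y hy'
    rw [uIcc_of_le hy] at hy'
    exact hA y hy'
  have h2 : ∫ x in x₁..x₂, ∫ y in y₁..y₂, ry x y ^ 2
      = -∫ x in x₁..x₂, ∫ y in y₁..y₂, r x y * ryy x y := by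
    rw [← intervalIntegral.integral_neg]
    apply intervalIntegral.integral_congr
    intro x hx'
    rw [uIcc_of_le hx] at hx'
    exact hB x hx'
  have h3 : ∫ x in x₁..x₂, ∫ y in y₁..y₂, (p x + q y) * r x y ^ 2
      = -((∫ x in x₁..x₂, ∫ y in y₁..y₂, r x y * rxx x y)
          + ∫ x in x₁..x₂, ∫ y in y₁..y₂, r x y * ryy x y) := by
    rw [← intervalIntegral.integral_add (cont1.intervalIntegrable _ _)
      (cont2.intervalIntegrable _ _), ← intervalIntegral.integral_neg]
    apply intervalIntegral.integral_congr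
    intro x hx'
    rw [uIcc_of_le hx] at hx'
    show ∫ y in y₁..y₂, (p x + q y) * r x y ^ 2
      = -((∫ y in y₁..y₂, r x y * rxx x y) + ∫ y in y₁..y₂, r x y * ryy x y)
    rw [← intervalIntegral.integral_add
      ((Energy_slice_right (F := fun x y => r x y * rxx x y) hcxx x).intervalIntegrable _ _)
      ((Energy_slice_right (F := fun x y => r x y * ryy x y) hcyy x).intervalIntegrable _ _),
      ← intervalIntegral.integral_neg]
    apply intervalIntegral.integral_congr
    intro y hy'
    rw [uIcc_of_le hy] at hy'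
    have hpde := h.pde x hx' y hy'
    show (p x + q y) * r x y ^ 2 = -(r x y * rxx x y + r x y * ryy x y)
    have e : r x y * rxx x y + r x y * ryy x y = r x y * (rxx x y + ryy x y) := by ring
    rw [e, hpde]
    ring
  rw [h1, h2, h3]
  ring

end Vale.Agent.Lib.P071.LR
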