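import Mathlib
import Vale.Agent.Lib.P071.LR.Defs

namespace Vale.Agent.Lib.P071.LR

open Set MeasureTheory Real Filter Topology
open Vale.Agent.Lib.P071

/-- A maximum point on a closed rectangle of a function without interior critical points lies
on the boundary. -/
theorem extremum_max_boundary {x₁ x₂ y₁ y₂ : ℝ} {U Ux Uy : ℝ → ℝ → ℝ}
    (hdx : ∀ x y, HasDerivAt (fun t => U t y) (Ux x y) x)
    (hdy : ∀ x y, HasDerivAt (fun t => U x t) (Uy x y) y)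
    (hno : ∀ x ∈ Ioo x₁ x₂, ∀ y ∈ Ioo y₁ y₂, ¬ (Ux x y = 0 ∧ Uy x y = 0))
    (mx my : ℝ) (hm1 : mx ∈ Icc x₁ x₂) (hm2 : my ∈ Icc y₁ y₂)
    (hmax : ∀ a ∈ Icc x₁ x₂, ∀ b ∈ Icc y₁ y₂, U a b ≤ U mx my) :
    mx = x₁ ∨ mx = x₂ ∨ my = y₁ ∨ my = y₂ := by
  by_contra hcon
  push Not at hcon
  obtain ⟨h1, h2, h3, h4⟩ := hcon
  have hmx : mx ∈ Ioo x₁ x₂ := ⟨lt_of_le_of_ne hm1.1 (Ne.symm h1), lt_of_le_of_ne hm1.2 h2⟩
  have hmy : my ∈ Ioo y₁ y₂ := ⟨lt_of_le_of_ne hm2.1 (Ne.symm h3), lt_of_le_of_ne hm2.2 h4⟩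
  have hlx : IsLocalMax (fun t => U t my) mx :=
    Filter.eventually_of_mem (Ioo_mem_nhds hmx.1 hmx.2)
      (fun t ht => hmax t ⟨ht.1.le, ht.2.le⟩ my hm2)
  have hly : IsLocalMax (fun t => U mx t) my :=
    Filter.eventually_of_mem (Ioo_mem_nhds hmy.1 hmy.2)
      (fun t ht => hmax mx hm1 t ⟨ht.1.le, ht.2.le⟩)
  have e1 : Ux mx my = 0 := hlx.hasDerivAt_eq_zero (hdx mx my)
  have e2 : Uy mx my = 0 := hly.hasDerivAt_eq_zero (hdy mx my)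
  exact hno mx hmx my hmy ⟨e1, e2⟩

/-- A minimum point on a closed rectangle of a function without interior critical points lies
on the boundary. -/
theorem extremum_min_boundary {x₁ x₂ y₁ y₂ : ℝ} {U Ux Uy : ℝ → ℝ → ℝ}
    (hdx : ∀ x y, HasDerivAt (fun t => U t y) (Ux x y) x)
    (hdy : ∀ x y, HasDerivAt (fun t => U x t) (Uy x y) y)
    (hno : ∀ x ∈ Ioo x₁ x₂, ∀ y ∈ Ioo y₁ y₂, ¬ (Ux x y = 0 ∧ Uy x y = 0))
    (mx my : ℝ) (hm1 : mx ∈ Icc x₁ x₂) (hm2 : my ∈ Icc y₁ y₂)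
    (hmin : ∀ a ∈ Icc x₁ x₂, ∀ b ∈ Icc y₁ y₂, U mx my ≤ U a b) :
    mx = x₁ ∨ mx = x₂ ∨ my = y₁ ∨ my = y₂ := by
  refine extremum_max_boundary (U := fun a b => -U a b) (Ux := fun a b => -Ux a b)
    (Uy := fun a b => -Uy a b) (fun x y => (hdx x y).neg) (fun x y => (hdy x y).neg) ?_
    mx my hm1 hm2 (fun a ha b hb => neg_le_neg (hmin a ha b hb))
  intro x hx y hy h
  exact hno x hx y hy ⟨neg_eq_zero.mp h.1, neg_eq_zero.mp h.2⟩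

/-- A function on a closed rectangle without interior critical points takes, at every interior
point, a value strictly between two of its boundary values. -/
theorem extremum_boundary {x₁ x₂ y₁ y₂ : ℝ} (hx : x₁ < x₂) (hy : y₁ < y₂) {U Ux Uy : ℝ → ℝ → ℝ}
    (hc : Continuous (fun z : ℝ × ℝ => U z.1 z.2))
    (hdx : ∀ x y, HasDerivAt (fun t => U t y) (Ux x y) x)
    (hdy : ∀ x y, HasDerivAt (fun t => U x t) (Uy x y) y)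
    (hno : ∀ x ∈ Ioo x₁ x₂, ∀ y ∈ Ioo y₁ y₂, ¬ (Ux x y = 0 ∧ Uy x y = 0)) :
    ∀ x ∈ Ioo x₁ x₂, ∀ y ∈ Ioo y₁ y₂,
      ∃ p q : ℝ × ℝ,
        (p.1 ∈ Icc x₁ x₂ ∧ p.2 ∈ Icc y₁ y₂ ∧ (p.1 = x₁ ∨ p.1 = x₂ ∨ p.2 = y₁ ∨ p.2 = y₂)) ∧
        (q.1 ∈ Icc x₁ x₂ ∧ q.2 ∈ Icc y₁ y₂ ∧ (q.1 = x₁ ∨ q.1 = x₂ ∨ q.2 = y₁ ∨ q.2 = y₂)) ∧
        U p.1 p.2 < U x y ∧ U x y < U q.1 q.2 := by
  intro x hxI y hyI
  have hK : IsCompact (Icc x₁ x₂ ×ˢ Icc y₁ y₂ : Set (ℝ × ℝ)) :=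
    isCompact_Icc.prod isCompact_Icc
  have hne : (Icc x₁ x₂ ×ˢ Icc y₁ y₂ : Set (ℝ × ℝ)).Nonempty :=
    ⟨(x₁, y₁), ⟨left_mem_Icc.mpr hx.le, left_mem_Icc.mpr hy.le⟩⟩
  obtain ⟨q, hqK, hqmax⟩ := hK.exists_isMaxOn hne hc.continuousOn
  obtain ⟨p, hpK, hpmin⟩ := hK.exists_isMinOn hne hc.continuousOn
  have hxK : x ∈ Icc x₁ x₂ := ⟨hxI.1.le, hxI.2.le⟩
  have hyK : y ∈ Icc y₁ y₂ := ⟨hyI.1.le, hyI.2.le⟩
  have hqmax' : ∀ a ∈ Icc x₁ x₂, ∀ b ∈ Icc y₁ y₂, U a b ≤ U q.1 q.2 :=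
    fun a ha b hb => isMaxOn_iff.mp hqmax (a, b) ⟨ha, hb⟩
  have hpmin' : ∀ a ∈ Icc x₁ x₂, ∀ b ∈ Icc y₁ y₂, U p.1 p.2 ≤ U a b :=
    fun a ha b hb => isMinOn_iff.mp hpmin (a, b) ⟨ha, hb⟩
  have hqb := extremum_max_boundary hdx hdy hno q.1 q.2 hqK.1 hqK.2 hqmax'
  have hpb := extremum_min_boundary hdx hdy hno p.1 p.2 hpK.1 hpK.2 hpmin'
  refine ⟨p, q, ⟨hpK.1, hpK.2, hpb⟩, ⟨hqK.1, hqK.2, hqb⟩, ?_, ?_⟩
  · rcases (hpmin' x hxK y hyK).lt_or_eq with h | h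
    · exact h
    · exfalso
      have hb := extremum_min_boundary hdx hdy hno x y hxK hyK
        (fun a ha b hb => le_of_eq_of_le h.symm (hpmin' a ha b hb))
      rcases hb with h1 | h1 | h1 | h1
      · exact hxI.1.ne' h1
      · exact hxI.2.ne h1
      · exact hyI.1.ne' h1
      · exact hyI.2.ne h1
  · rcases (hqmax' x hxK y hyK).lt_or_eq with h | h
    · exact h
    · exfalso
      have hb := extremum_max_boundary hdx hdy hno x y hxK hyK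
        (fun a ha b hb => le_of_le_of_eq (hqmax' a ha b hb) h.symm)
      rcases hb with h1 | h1 | h1 | h1
      · exact hxI.1.ne' h1
      · exact hxI.2.ne h1
      · exact hyI.1.ne' h1
      · exact hyI.2.ne h1

end Vale.Agent.Lib.P071.LR
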