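import Mathlib
import Vale.Agent.Lib.P071.LR.Defs
import Vale.Agent.Lib.P071.Stopped
import Vale.Agent.Lib.P222.PosSol

namespace Vale.Agent.Lib.P071.LR

open Set MeasureTheory Real Filter Topology
open Vale.Agent.Lib.P071

/-- The Volterra solution has value `1` at the origin. -/
theorem family_voltSol_zero (c : ℝ → ℝ) : P222.voltSol c 0 = 1 := by
  unfold P222.voltSol
  have h : ∀ n, P222.volt c (n + 1) 0 = 0 := fun n => by
    rw [P222.volt_succ, intervalIntegral.integral_same]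
  simp only [h, tsum_zero, add_zero]

/-- The derivative of the Volterra solution vanishes at the origin. -/
theorem family_voltSolD_zero (c : ℝ → ℝ) : P222.voltSolD c 0 = 0 := by
  unfold P222.voltSolD P222.voltD
  simp only [intervalIntegral.integral_same, tsum_zero]

/-- A bound for the Volterra solution in terms of a bound of the coefficient. -/
theorem family_voltSol_bound {c : ℝ → ℝ} (hc : Continuous c) {C : ℝ} (hC : ∀ x, |c x| ≤ C)
    (x : ℝ) : |P222.voltSol c x| ≤ 2 * Real.cosh ((C + 1) * x) := by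
  have hsum := P222.volt_summable hc hC x
  have e : P222.voltSol c x = ∑' n, P222.volt c n x := by
    rw [hsum.tsum_eq_zero_add]
    simp [P222.voltSol, P222.volt]
  rw [e, ← Real.norm_eq_abs]
  refine tsum_of_norm_bounded (hasSum_geometric_two.mul_right (Real.cosh ((C + 1) * x)))
    (fun n => ?_)
  rw [Real.norm_eq_abs]
  exact (P222.volt_bound hc hC n x).1

/-- Continuous dependence on the spectral parameter, by the Gronwall inequality: two solutions
of `y'' = -(κ + q) y` with the same initial values, for the parameters `κ₀` and `κ`. -/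
theorem family_gronwall {s₁ s₂ : ℝ} (hs : s₁ ≤ s₂) {q : ℝ → ℝ} {B : ℝ} (hB : ∀ t, |q t| ≤ B)
    {κ₀ κ M : ℝ} {a a' b b' : ℝ → ℝ}
    (ha : ∀ t, HasDerivAt a (a' t) t) (ha' : ∀ t, HasDerivAt a' (-(κ₀ + q t) * a t) t)
    (hb : ∀ t, HasDerivAt b (b' t) t) (hb' : ∀ t, HasDerivAt b' (-(κ + q t) * b t) t)
    (h0 : a s₁ = b s₁) (h0' : a' s₁ = b' s₁) (hM : ∀ t ∈ Icc s₁ s₂, |b t| ≤ M) :
    ∀ t ∈ Icc s₁ s₂,
      |b t - a t| ≤ |κ - κ₀| * M * Real.exp (max 1 (|κ₀| + B) * (s₂ - s₁)) ∧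
      |b' t - a' t| ≤ |κ - κ₀| * M * Real.exp (max 1 (|κ₀| + B) * (s₂ - s₁)) := by
  obtain ⟨K, hK⟩ : ∃ K : ℝ, K = max 1 (|κ₀| + B) := ⟨_, rfl⟩
  rw [← hK]
  have hK1 : 1 ≤ K := by
    rw [hK]
    exact le_max_left _ _
  have hKc : |κ₀| + B ≤ K := by
    rw [hK]
    exact le_max_right _ _
  have hK0 : 0 ≤ K := by linarith
  have hKnn : ((Real.toNNReal K : NNReal) : ℝ) = K := Real.coe_toNNReal _ hK0
  have hM0 : 0 ≤ M := le_trans (abs_nonneg _) (hM s₁ ⟨le_rfl, hs⟩)
  obtain ⟨v, hvdef⟩ : ∃ v : ℝ → ℝ × ℝ → ℝ × ℝ, v = fun t y => (y.2, -(κ₀ + q t) * y.1) :=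
    ⟨_, rfl⟩
  have hv : ∀ t, LipschitzWith (Real.toNNReal K) (v t) := by
    intro t
    apply LipschitzWith.of_dist_le_mul
    intro y z
    rw [hKnn, hvdef]
    show dist (y.2, -(κ₀ + q t) * y.1) (z.2, -(κ₀ + q t) * z.1) ≤ K * dist y z
    rw [Prod.dist_eq, Prod.dist_eq]
    have hmax : 0 ≤ max (dist y.1 z.1) (dist y.2 z.2) :=
      le_trans dist_nonneg (le_max_left _ _)
    have hd1 : dist y.2 z.2 ≤ K * max (dist y.1 z.1) (dist y.2 z.2) := by
      calc dist y.2 z.2 ≤ 1 * max (dist y.1 z.1) (dist y.2 z.2) := by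
            rw [one_mul]
            exact le_max_right _ _
        _ ≤ K * max (dist y.1 z.1) (dist y.2 z.2) := mul_le_mul_of_nonneg_right hK1 hmax
    have hd2 : dist (-(κ₀ + q t) * y.1) (-(κ₀ + q t) * z.1)
        ≤ K * max (dist y.1 z.1) (dist y.2 z.2) := by
      rw [Real.dist_eq, ← mul_sub, abs_mul, abs_neg]
      have hq : |κ₀ + q t| ≤ K := by
        have h1 := abs_add_le κ₀ (q t)
        have h2 := hB t
        linarith
      calc |κ₀ + q t| * |y.1 - z.1| ≤ K * |y.1 - z.1| :=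
            mul_le_mul_of_nonneg_right hq (abs_nonneg _)
        _ ≤ K * max (dist y.1 z.1) (dist y.2 z.2) := by
            apply mul_le_mul_of_nonneg_left _ hK0
            rw [← Real.dist_eq]
            exact le_max_left _ _
    exact max_le hd1 hd2
  have hF : ∀ t, HasDerivAt (fun t => (a t, a' t)) (v t (a t, a' t)) t := by
    intro t
    rw [hvdef]
    exact (ha t).prodMk (ha' t)
  have hG : ∀ t, HasDerivAt (fun t => (b t, b' t)) (b' t, -(κ + q t) * b t) t :=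
    fun t => (hb t).prodMk (hb' t)
  have hFc : Continuous (fun t => (a t, a' t)) :=
    continuous_iff_continuousAt.mpr (fun t => (hF t).continuousAt)
  have hGc : Continuous (fun t => (b t, b' t)) :=
    continuous_iff_continuousAt.mpr (fun t => (hG t).continuousAt)
  have hgb : ∀ t ∈ Ico s₁ s₂,
      dist (b' t, -(κ + q t) * b t) (v t (b t, b' t)) ≤ |κ - κ₀| * M := by
    intro t ht
    rw [hvdef]
    show dist (b' t, -(κ + q t) * b t) (b' t, -(κ₀ + q t) * b t) ≤ |κ - κ₀| * M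
    rw [Prod.dist_eq, dist_self, Real.dist_eq]
    have e : -(κ + q t) * b t - -(κ₀ + q t) * b t = -(κ - κ₀) * b t := by ring
    rw [e, abs_mul, abs_neg]
    have h1 := hM t ⟨ht.1, ht.2.le⟩
    exact max_le (mul_nonneg (abs_nonneg _) hM0)
      (mul_le_mul_of_nonneg_left h1 (abs_nonneg _))
  have hgron := dist_le_of_approx_trajectories_ODE (v := v) (K := Real.toNNReal K)
    (f := fun t => (a t, a' t)) (f' := fun t => v t (a t, a' t))
    (g := fun t => (b t, b' t)) (g' := fun t => (b' t, -(κ + q t) * b t))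
    (a := s₁) (b := s₂) (εf := 0) (εg := |κ - κ₀| * M) (δ := 0)
    hv hFc.continuousOn (fun t _ => (hF t).hasDerivWithinAt)
    (fun t _ => by rw [dist_self])
    hGc.continuousOn (fun t _ => (hG t).hasDerivWithinAt) hgb
    (by rw [h0, h0', dist_self])
  intro t ht
  have h1 := hgron t ht
  have hKne : ((Real.toNNReal K : NNReal) : ℝ) ≠ 0 := by
    rw [hKnn]
    linarith
  rw [gronwallBound_of_K_ne_0 hKne, hKnn] at h1
  simp only [zero_mul, zero_add] at h1
  have h2 : |κ - κ₀| * M / K * (Real.exp (K * (t - s₁)) - 1)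
      ≤ |κ - κ₀| * M * Real.exp (K * (s₂ - s₁)) := by
    have e1 : Real.exp (K * (t - s₁)) ≤ Real.exp (K * (s₂ - s₁)) := by
      apply Real.exp_le_exp.mpr
      apply mul_le_mul_of_nonneg_left _ hK0
      linarith [ht.2]
    have e2 : 0 ≤ |κ - κ₀| * M := mul_nonneg (abs_nonneg _) hM0
    have e3 : |κ - κ₀| * M / K ≤ |κ - κ₀| * M := div_le_self e2 hK1
    have e4 : 0 ≤ Real.exp (K * (t - s₁)) - 1 := by
      have h5 : (1 : ℝ) ≤ Real.exp (K * (t - s₁)) :=
        Real.one_le_exp (mul_nonneg hK0 (by linarith [ht.1]))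
      linarith
    calc |κ - κ₀| * M / K * (Real.exp (K * (t - s₁)) - 1)
        ≤ |κ - κ₀| * M * (Real.exp (K * (t - s₁)) - 1) := mul_le_mul_of_nonneg_right e3 e4
      _ ≤ |κ - κ₀| * M * Real.exp (K * (s₂ - s₁)) :=
          mul_le_mul_of_nonneg_left (by linarith) e2
  rw [Prod.dist_eq] at h1
  have h3 : dist (a t) (b t) ≤ |κ - κ₀| * M * Real.exp (K * (s₂ - s₁)) :=
    le_trans (le_max_left _ _) (h1.trans h2)
  have h4 : dist (a' t) (b' t) ≤ |κ - κ₀| * M * Real.exp (K * (s₂ - s₁)) :=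
    le_trans (le_max_right _ _) (h1.trans h2)
  rw [Real.dist_eq, abs_sub_comm] at h3 h4
  exact ⟨h3, h4⟩

/-- The shooting family: for every real `κ` the solution `φ κ` of `φ'' = -(κ + Q) φ` on
`[s₁,s₂]` with `φ s₁ = 1`, `φ' s₁ = 0`, depending continuously on `κ` uniformly on `[s₁,s₂]`. -/
theorem shoot_family {s₁ s₂ : ℝ} (hs : s₁ < s₂) {Q : ℝ → ℝ} (hQ : Continuous Q) :
    ∃ φ φ' φ'' : ℝ → ℝ → ℝ,
      (∀ κ s, HasDerivAt (φ κ) (φ' κ s) s) ∧
      (∀ κ s, HasDerivAt (φ' κ) (φ'' κ s) s) ∧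
      (∀ κ, Continuous (φ'' κ)) ∧
      (∀ κ, ∀ s ∈ Icc s₁ s₂, φ'' κ s = -(κ + Q s) * φ κ s) ∧
      (∀ κ, φ κ s₁ = 1) ∧ (∀ κ, φ' κ s₁ = 0) ∧
      (∀ κ, (∀ s ∈ Icc s₁ s₂, κ + Q s ≤ 0) → ∀ s ∈ Icc s₁ s₂, 1 ≤ φ κ s) ∧
      (∀ κ₀ ε : ℝ, 0 < ε → ∃ δ : ℝ, 0 < δ ∧ ∀ κ, |κ - κ₀| < δ → ∀ s ∈ Icc s₁ s₂,
        |φ κ s - φ κ₀ s| < ε ∧ |φ' κ s - φ' κ₀ s| < ε) := by
  obtain ⟨B, hB'⟩ := stopped_bounded hQ hs.le 0
  have hB : ∀ t, |stopped Q s₁ s₂ t| ≤ B := fun t => by
    have h := hB' t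
    rwa [add_zero] at h
  have hB0 : 0 ≤ B := le_trans (abs_nonneg _) (hB 0)
  obtain ⟨c, hcdef⟩ : ∃ c : ℝ → ℝ → ℝ, c = fun κ t => -(κ + stopped Q s₁ s₂ (t + s₁)) :=
    ⟨_, rfl⟩
  have hcv : ∀ κ t, c κ t = -(κ + stopped Q s₁ s₂ (t + s₁)) := fun κ t => by rw [hcdef]
  have hcc : ∀ κ, Continuous (c κ) := by
    intro κ
    rw [hcdef]
    exact (continuous_const.add ((stopped_continuous hQ s₁ s₂).comp
      (continuous_id.add continuous_const))).neg
  have hcC : ∀ κ t, |c κ t| ≤ |κ| + B := by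
    intro κ t
    rw [hcv, abs_neg]
    have h1 := abs_add_le κ (stopped Q s₁ s₂ (t + s₁))
    have h2 := hB (t + s₁)
    linarith
  have hcs : ∀ κ s, c κ (s - s₁) = -(κ + stopped Q s₁ s₂ s) := by
    intro κ s
    rw [hcv, sub_add_cancel]
  refine ⟨fun κ s => P222.voltSol (c κ) (s - s₁), fun κ s => P222.voltSolD (c κ) (s - s₁),
    fun κ s => c κ (s - s₁) * P222.voltSol (c κ) (s - s₁), ?_, ?_, ?_, ?_, ?_, ?_, ?_, ?_⟩
  · intro κ s
    exact (P222.voltSol_hasDerivAt (hcc κ) (hcC κ) (s - s₁)).comp_sub_const s s₁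
  · intro κ s
    exact (P222.voltSolD_hasDerivAt (hcc κ) (hcC κ) (s - s₁)).comp_sub_const s s₁
  · intro κ
    have h1 : Continuous (P222.voltSol (c κ)) := continuous_iff_continuousAt.mpr
      (fun x => (P222.voltSol_hasDerivAt (hcc κ) (hcC κ) x).continuousAt)
    exact ((hcc κ).comp (continuous_id.sub continuous_const)).mul
      (h1.comp (continuous_id.sub continuous_const))
  · intro κ s hs'
    show c κ (s - s₁) * P222.voltSol (c κ) (s - s₁) = -(κ + Q s) * P222.voltSol (c κ) (s - s₁)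
    rw [hcs, stopped_eq_of_mem Q hs']
  · intro κ
    show P222.voltSol (c κ) (s₁ - s₁) = 1
    rw [sub_self]
    exact family_voltSol_zero _
  · intro κ
    show P222.voltSolD (c κ) (s₁ - s₁) = 0
    rw [sub_self]
    exact family_voltSolD_zero _
  · intro κ hκ s hs'
    show 1 ≤ P222.voltSol (c κ) (s - s₁)
    have hc0 : ∀ x, 0 ≤ c κ x := by
      intro x
      rw [hcv]
      have h1 := hκ _ (stopped_clamp_mem hs.le (x + s₁))
      unfold stopped
      linarith
    have h1 : 0 ≤ ∑' n, P222.volt (c κ) (n + 1) (s - s₁) :=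
      tsum_nonneg (fun n => P222.volt_nonneg (hcc κ) hc0 (n + 1) (s - s₁)
        (by linarith [hs'.1]))
    unfold P222.voltSol
    linarith
  · intro κ₀ ε hε
    obtain ⟨C, hCdef⟩ : ∃ C : ℝ, C = |κ₀| + 1 + B := ⟨_, rfl⟩
    obtain ⟨M, hMdef⟩ : ∃ M : ℝ, M = 2 * Real.cosh ((C + 1) * (s₂ - s₁)) := ⟨_, rfl⟩
    obtain ⟨E, hEdef⟩ : ∃ E : ℝ, E = Real.exp (max 1 (|κ₀| + B) * (s₂ - s₁)) := ⟨_, rfl⟩
    have hM0 : 0 < M := by
      rw [hMdef]
      positivity
    have hE0 : 0 < E := by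
      rw [hEdef]
      positivity
    have hME : 0 < M * E + 1 := by positivity
    refine ⟨min 1 (ε / (M * E + 1)), lt_min one_pos (div_pos hε hME), ?_⟩
    intro κ hκ s hs'
    have hκ1 : |κ - κ₀| < 1 := lt_of_lt_of_le hκ (min_le_left _ _)
    have hκ2 : |κ - κ₀| < ε / (M * E + 1) := lt_of_lt_of_le hκ (min_le_right _ _)
    have hκC : ∀ t, |c κ t| ≤ C := by
      intro t
      refine (hcC κ t).trans ?_
      have h1 := abs_sub_abs_le_abs_sub κ κ₀
      rw [hCdef]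
      linarith
    have hC0 : 0 ≤ C + 1 := by
      rw [hCdef]
      positivity
    have hbM : ∀ t ∈ Icc s₁ s₂, |P222.voltSol (c κ) (t - s₁)| ≤ M := by
      intro t ht
      refine (family_voltSol_bound (hcc κ) hκC (t - s₁)).trans ?_
      rw [hMdef]
      have h1 : Real.cosh ((C + 1) * (t - s₁)) ≤ Real.cosh ((C + 1) * (s₂ - s₁)) := by
        rw [Real.cosh_le_cosh, abs_of_nonneg (mul_nonneg hC0 (by linarith [ht.1])),
          abs_of_nonneg (mul_nonneg hC0 (by linarith))]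
        exact mul_le_mul_of_nonneg_left (by linarith [ht.2]) hC0
      linarith
    have hg := family_gronwall hs.le hB (κ₀ := κ₀) (κ := κ) (M := M)
      (a := fun s => P222.voltSol (c κ₀) (s - s₁))
      (a' := fun s => P222.voltSolD (c κ₀) (s - s₁))
      (b := fun s => P222.voltSol (c κ) (s - s₁))
      (b' := fun s => P222.voltSolD (c κ) (s - s₁))
      (fun t => (P222.voltSol_hasDerivAt (hcc κ₀) (hcC κ₀) (t - s₁)).comp_sub_const t s₁)
      (fun t => by
        have h := (P222.voltSolD_hasDerivAt (hcc κ₀) (hcC κ₀) (t - s₁)).comp_sub_const t s₁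
        rw [hcs] at h
        exact h)
      (fun t => (P222.voltSol_hasDerivAt (hcc κ) (hcC κ) (t - s₁)).comp_sub_const t s₁)
      (fun t => by
        have h := (P222.voltSolD_hasDerivAt (hcc κ) (hcC κ) (t - s₁)).comp_sub_const t s₁
        rw [hcs] at h
        exact h)
      (by simp only [sub_self, family_voltSol_zero])
      (by simp only [sub_self, family_voltSolD_zero])
      hbM s hs'
    rw [← hEdef] at hg
    have hfin : |κ - κ₀| * M * E < ε := by
      have h1 : |κ - κ₀| * (M * E + 1) < ε := by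
        rwa [lt_div_iff₀ hME] at hκ2
      nlinarith [abs_nonneg (κ - κ₀)]
    exact ⟨lt_of_le_of_lt hg.1 hfin, lt_of_le_of_lt hg.2 hfin⟩

end Vale.Agent.Lib.P071.LR
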