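import Mathlib
import Vale.Agent.Lib.P071.LR.Defs
import Vale.Agent.Lib.P071.LR.Family

namespace Vale.Agent.Lib.P071.LR

open Set MeasureTheory Real Filter Topology
open Vale.Agent.Lib.P071

/-- A function with positive derivative on an open interval increases across it. -/
theorem ground_deriv_pos {a b : ℝ} (hab : a < b) (f f' : ℝ → ℝ)
    (hd : ∀ x, HasDerivAt f (f' x) x) (hpos : ∀ x ∈ Ioo a b, 0 < f' x) : f a < f b := by
  have hmono : StrictMonoOn f (Icc a b) := by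
    apply strictMonoOn_of_deriv_pos (convex_Icc a b)
    · exact fun x _ => (hd x).continuousAt.continuousWithinAt
    · intro x hx
      rw [interior_Icc] at hx
      rw [(hd x).deriv]
      exact hpos x hx
  exact hmono ⟨le_rfl, hab.le⟩ ⟨hab.le, le_rfl⟩ hab

/-- A solution with value one and slope zero at the left end has no double zero. -/
theorem ground_nodouble {s₁ s₂ : ℝ} {Q : ℝ → ℝ} (hQ : Continuous Q) (κ : ℝ)
    (a a' a'' : ℝ → ℝ) (hd1 : ∀ s, HasDerivAt a (a' s) s) (hd2 : ∀ s, HasDerivAt a' (a'' s) s)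
    (hc2 : Continuous a'') (hode : ∀ s ∈ Icc s₁ s₂, a'' s = -(κ + Q s) * a s)
    (h1 : a s₁ = 1) (h1' : a' s₁ = 0) (t : ℝ) (ht : t ∈ Icc s₁ s₂) (h0 : a t = 0)
    (h0' : a' t = 0) : False := by
  have hmode : NeumannMode s₁ t (fun s => -(κ + Q s)) a a' a'' :=
    ⟨hd1, hd2, hc2, fun s hs => hode s ⟨hs.1, hs.2.trans ht.2⟩, h1', h0'⟩
  have hQc : Continuous (fun s => -(κ + Q s)) := (continuous_const.add hQ).neg
  have h2 := hmode.unique hQc (t₀ := t) ⟨ht.1, le_rfl⟩ h0 h0' s₁ ⟨le_rfl, ht.1⟩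
  rw [h1] at h2
  exact one_ne_zero h2

/-- Existence of a positive Neumann ground state of `-Y'' - Q Y = κ Y` on `[s₁,s₂]`. -/
theorem exists_ground_state {s₁ s₂ : ℝ} (hs : s₁ < s₂) {Q : ℝ → ℝ} (hQ : Continuous Q) :
    ∃ (κ : ℝ) (Y Y' Y'' : ℝ → ℝ), NeumannMode s₁ s₂ (fun s => -(κ + Q s)) Y Y' Y'' ∧
      ∀ s ∈ Icc s₁ s₂, 0 < Y s := by
  obtain ⟨φ, φ', φ'', hd1, hd2, hc2, hode, hφ1, hφ'1, hge1, hunif⟩ := shoot_family hs hQ
  have hne : (Icc s₁ s₂).Nonempty := nonempty_Icc.mpr hs.le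
  obtain ⟨xmin, hxminmem, hxmin⟩ := isCompact_Icc.exists_isMinOn hne hQ.continuousOn
  obtain ⟨xmax, _, hxmax⟩ := isCompact_Icc.exists_isMaxOn hne hQ.continuousOn
  have hqmin : ∀ s ∈ Icc s₁ s₂, Q xmin ≤ Q s := fun s hs' => hxmin hs'
  have hqmax : ∀ s ∈ Icc s₁ s₂, Q s ≤ Q xmax := fun s hs' => hxmax hs'
  have hqq : Q xmin ≤ Q xmax := hqmax xmin hxminmem
  have hcont : ∀ κ, Continuous (φ κ) := fun κ =>
    continuous_iff_continuousAt.2 fun s => (hd1 κ s).continuousAt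
  have hcont' : ∀ κ, Continuous (φ' κ) := fun κ =>
    continuous_iff_continuousAt.2 fun s => (hd2 κ s).continuousAt
  -- the good set of parameters
  obtain ⟨G, hG⟩ : ∃ G : ℝ → Prop,
      ∀ κ, G κ ↔ ((∀ s ∈ Icc s₁ s₂, 0 < φ κ s) ∧ 0 < φ' κ s₂) := ⟨_, fun κ => Iff.rfl⟩
  -- the good set is open
  have hopen : ∀ κ₀, G κ₀ → ∃ δ : ℝ, 0 < δ ∧ ∀ κ, |κ - κ₀| < δ → G κ := by
    intro κ₀ hκ₀
    rw [hG] at hκ₀
    obtain ⟨hpos, hpos'⟩ := hκ₀
    obtain ⟨x₀, hx₀, hx₀min⟩ := isCompact_Icc.exists_isMinOn hne (hcont κ₀).continuousOn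
    have hm : 0 < φ κ₀ x₀ := hpos x₀ hx₀
    have hmin : ∀ s ∈ Icc s₁ s₂, φ κ₀ x₀ ≤ φ κ₀ s := fun s hs' => hx₀min hs'
    obtain ⟨δ, hδ, hδ'⟩ := hunif κ₀ (min (φ κ₀ x₀) (φ' κ₀ s₂) / 2) (half_pos (lt_min hm hpos'))
    refine ⟨δ, hδ, fun κ hκ => ?_⟩
    rw [hG]
    have hε1 : min (φ κ₀ x₀) (φ' κ₀ s₂) / 2 < φ κ₀ x₀ := by
      have h3 := min_le_left (φ κ₀ x₀) (φ' κ₀ s₂)
      linarith
    have hε2 : min (φ κ₀ x₀) (φ' κ₀ s₂) / 2 < φ' κ₀ s₂ := by
      have h3 := min_le_right (φ κ₀ x₀) (φ' κ₀ s₂)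
      linarith
    constructor
    · intro s hs'
      have h1 := (abs_lt.mp (hδ' κ hκ s hs').1).1
      have h2 := hmin s hs'
      linarith
    · have h1 := (abs_lt.mp (hδ' κ hκ s₂ ⟨hs.le, le_rfl⟩).2).1
      linarith
  -- a parameter in the good set
  have hκm : G (-(Q xmax) - 1) := by
    rw [hG]
    have hle : ∀ s ∈ Icc s₁ s₂, -(Q xmax) - 1 + Q s ≤ 0 := fun s hs' => by
      have h3 := hqmax s hs'
      linarith
    have hge := hge1 _ hle
    refine ⟨fun s hs' => lt_of_lt_of_le one_pos (hge s hs'), ?_⟩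
    have h1 := ground_deriv_pos hs (φ' (-(Q xmax) - 1)) (φ'' (-(Q xmax) - 1)) (hd2 _) (by
      intro x hx
      have hx' : x ∈ Icc s₁ s₂ := Ioo_subset_Icc_self hx
      rw [hode _ x hx']
      have h2 := hge x hx'
      have h3 := hqmax x hx'
      exact mul_pos (by linarith) (by linarith))
    rw [hφ'1] at h1
    exact h1
  -- a parameter outside the good set
  have hκp : ¬ G (-(Q xmin) + 1) := by
    intro hg
    rw [hG] at hg
    obtain ⟨hpos, hpos'⟩ := hg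
    have h1 := ground_deriv_pos hs (fun s => -(φ' (-(Q xmin) + 1) s))
      (fun s => -(φ'' (-(Q xmin) + 1) s)) (fun x => (hd2 _ x).neg) (by
      intro x hx
      have hx' : x ∈ Icc s₁ s₂ := Ioo_subset_Icc_self hx
      show 0 < -(φ'' (-(Q xmin) + 1) x)
      rw [hode _ x hx']
      have h2 := hpos x hx'
      have h3 := hqmin x hx'
      have h4 : 0 < (-(Q xmin) + 1 + Q x) * φ (-(Q xmin) + 1) x := mul_pos (by linarith) h2
      linarith)
    have h1' : -(φ' (-(Q xmin) + 1) s₁) < -(φ' (-(Q xmin) + 1) s₂) := h1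
    rw [hφ'1] at h1'
    linarith
  -- the first parameter outside the good set
  obtain ⟨S, hS⟩ : ∃ S : Set ℝ, S = {κ | -(Q xmax) - 1 ≤ κ ∧ ¬ G κ} := ⟨_, rfl⟩
  have hSmem : ∀ κ, κ ∈ S ↔ (-(Q xmax) - 1 ≤ κ ∧ ¬ G κ) := by
    intro κ
    rw [hS]
    exact Iff.rfl
  have hSne : S.Nonempty := ⟨-(Q xmin) + 1, (hSmem _).mpr ⟨by linarith, hκp⟩⟩
  have hSbdd : BddBelow S := ⟨-(Q xmax) - 1, fun κ hκ => ((hSmem κ).mp hκ).1⟩
  obtain ⟨κs, hκs⟩ : ∃ κs : ℝ, κs = sInf S := ⟨_, rfl⟩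
  have hbelow : ∀ κ, -(Q xmax) - 1 ≤ κ → κ < κs → G κ := by
    intro κ h1 h2
    rw [hκs] at h2
    by_contra hcon
    exact notMem_of_lt_csInf h2 hSbdd ((hSmem κ).mpr ⟨h1, hcon⟩)
  have hκs_gt : -(Q xmax) - 1 < κs := by
    obtain ⟨δ, hδ, hδ'⟩ := hopen _ hκm
    have h3 : -(Q xmax) - 1 + δ ≤ κs := by
      rw [hκs]
      apply le_csInf hSne
      intro κ hκ
      obtain ⟨h1, h2⟩ := (hSmem κ).mp hκ
      by_contra hcon
      push Not at hcon
      exact h2 (hδ' κ (by rw [abs_lt]; constructor <;> linarith))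
    linarith
  have hκs_not : ¬ G κs := by
    intro hg
    obtain ⟨δ, hδ, hδ'⟩ := hopen _ hg
    have h3 : κs + δ ≤ κs := by
      conv_rhs => rw [hκs]
      apply le_csInf hSne
      intro κ hκ
      obtain ⟨h1, h2⟩ := (hSmem κ).mp hκ
      by_contra hcon
      push Not at hcon
      by_cases hlt : κ < κs
      · exact h2 (hbelow κ h1 hlt)
      · exact h2 (hδ' κ (by rw [abs_lt]; constructor <;> linarith))
    linarith
  -- approximation of the limit parameter from inside the good set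
  have hlim : ∀ ε : ℝ, 0 < ε → ∃ κ, G κ ∧ ∀ s ∈ Icc s₁ s₂,
      |φ κ s - φ κs s| < ε ∧ |φ' κ s - φ' κs s| < ε := by
    intro ε hε
    obtain ⟨δ, hδ, hδ'⟩ := hunif κs ε hε
    have hlt : max (-(Q xmax) - 1) (κs - δ / 2) < κs := max_lt hκs_gt (by linarith)
    refine ⟨max (-(Q xmax) - 1) (κs - δ / 2), hbelow _ (le_max_left _ _) hlt, hδ' _ ?_⟩
    rw [abs_lt]
    have h3 := le_max_right (-(Q xmax) - 1) (κs - δ / 2)
    constructor <;> linarith
  have hnonneg : ∀ s ∈ Icc s₁ s₂, 0 ≤ φ κs s := by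
    intro s hs'
    by_contra hcon
    push Not at hcon
    obtain ⟨κ, hgκ, hκ⟩ := hlim (-(φ κs s)) (by linarith)
    rw [hG] at hgκ
    have h1 := hgκ.1 s hs'
    have h2 := (abs_lt.mp (hκ s hs').1).2
    linarith
  have hnonneg' : 0 ≤ φ' κs s₂ := by
    by_contra hcon
    push Not at hcon
    obtain ⟨κ, hgκ, hκ⟩ := hlim (-(φ' κs s₂)) (by linarith)
    rw [hG] at hgκ
    have h1 := hgκ.2
    have h2 := (abs_lt.mp (hκ s₂ ⟨hs.le, le_rfl⟩).2).2
    linarith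
  -- positivity of the limit solution
  have hpos : ∀ s ∈ Icc s₁ s₂, 0 < φ κs s := by
    intro t ht
    by_contra hcon
    have h0 : φ κs t = 0 := le_antisymm (not_lt.mp hcon) (hnonneg t ht)
    have hts₁ : t ≠ s₁ := by
      intro h
      rw [h, hφ1] at h0
      exact one_ne_zero h0
    have ht1 : s₁ < t := lt_of_le_of_ne ht.1 (Ne.symm hts₁)
    rcases lt_or_eq_of_le ht.2 with ht2 | ht2
    · have hmin : IsLocalMin (φ κs) t := by
        filter_upwards [Ioo_mem_nhds ht1 ht2] with s hs'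
        rw [h0]
        exact hnonneg s (Ioo_subset_Icc_self hs')
      have h0' : φ' κs t = 0 := hmin.hasDerivAt_eq_zero (hd1 κs t)
      exact ground_nodouble hQ κs (φ κs) (φ' κs) (φ'' κs) (hd1 κs) (hd2 κs) (hc2 κs) (hode κs)
        (hφ1 κs) (hφ'1 κs) t ht h0 h0'
    · rw [ht2] at h0
      have hd0 : φ' κs s₂ ≤ 0 := by
        by_contra hcon2
        push Not at hcon2
        have hev : ∀ᶠ s in 𝓝 s₂, 0 < φ' κs s :=
          (hcont' κs).continuousAt.eventually (lt_mem_nhds hcon2)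
        obtain ⟨η, hη, hη'⟩ := Metric.eventually_nhds_iff.mp hev
        have ha1 : max s₁ (s₂ - η / 2) < s₂ := max_lt hs (by linarith)
        have h3 := ground_deriv_pos ha1 (φ κs) (φ' κs) (hd1 κs) (by
          intro x hx
          apply hη'
          rw [Real.dist_eq, abs_lt]
          have h5 := le_max_right s₁ (s₂ - η / 2)
          constructor <;> linarith [hx.1, hx.2])
        rw [h0] at h3
        have h4 := hnonneg (max s₁ (s₂ - η / 2)) ⟨le_max_left _ _, ha1.le⟩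
        linarith
      have h0' : φ' κs s₂ = 0 := le_antisymm hd0 hnonneg'
      exact ground_nodouble hQ κs (φ κs) (φ' κs) (φ'' κs) (hd1 κs) (hd2 κs) (hc2 κs) (hode κs)
        (hφ1 κs) (hφ'1 κs) s₂ ⟨hs.le, le_rfl⟩ h0 h0'
  have hfin : φ' κs s₂ = 0 := by
    by_contra hcon
    have h3 : 0 < φ' κs s₂ := lt_of_le_of_ne hnonneg' (Ne.symm hcon)
    exact hκs_not ((hG κs).mpr ⟨hpos, h3⟩)
  exact ⟨κs, φ κs, φ' κs, φ'' κs, ⟨hd1 κs, hd2 κs, hc2 κs, hode κs, hφ'1 κs, hfin⟩, hpos⟩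

end Vale.Agent.Lib.P071.LR
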