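import Mathlib
import Vale.Agent.Lib.P071.LR.Defs

namespace Vale.Agent.Lib.P071.LR

open Set MeasureTheory Real Filter Topology
open Vale.Agent.Lib.P071

/-- The eigenvalue relation `∫ (κ + Q) Y = 0` of a Neumann mode. -/
theorem ground_int_zero {s₁ s₂ κ : ℝ} (hs : s₁ ≤ s₂) {Q Y Y' Y'' : ℝ → ℝ}
    (hY : NeumannMode s₁ s₂ (fun s => -(κ + Q s)) Y Y' Y'') :
    ∫ s in s₁..s₂, (κ + Q s) * Y s = 0 := by
  have h : ∫ t in s₁..s₂, -(κ + Q t) * Y t = Y' s₂ := hY.linear (t₀ := s₂) ⟨hs, le_rfl⟩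
  have e : ∫ s in s₁..s₂, (κ + Q s) * Y s = -∫ t in s₁..s₂, -(κ + Q t) * Y t := by
    rw [← intervalIntegral.integral_neg]
    congr 1
    funext s
    ring
  rw [e, h, hY.n2, neg_zero]

/-- The eigenvalue identity `(e - κ) ∫ Y = ∫ (Q + e) Y`. -/
private lemma groundProps_identity {s₁ s₂ κ e : ℝ} (hs : s₁ ≤ s₂) {Q Y Y' Y'' : ℝ → ℝ}
    (hQ : Continuous Q) (hY : NeumannMode s₁ s₂ (fun s => -(κ + Q s)) Y Y' Y'') :
    (e - κ) * ∫ s in s₁..s₂, Y s = ∫ s in s₁..s₂, (Q s + e) * Y s := by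
  have h0 := ground_int_zero hs hY
  have hc1 : Continuous (fun s => (Q s + e) * Y s) := (hQ.add continuous_const).mul hY.cont
  have hc2 : Continuous (fun s => (κ + Q s) * Y s) := (continuous_const.add hQ).mul hY.cont
  have h1 : ∫ s in s₁..s₂, ((Q s + e) * Y s - (κ + Q s) * Y s)
      = (∫ s in s₁..s₂, (Q s + e) * Y s) - ∫ s in s₁..s₂, (κ + Q s) * Y s :=
    intervalIntegral.integral_sub (hc1.intervalIntegrable s₁ s₂) (hc2.intervalIntegrable s₁ s₂)
  have h2 : ∫ s in s₁..s₂, ((Q s + e) * Y s - (κ + Q s) * Y s)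
      = (e - κ) * ∫ s in s₁..s₂, Y s := by
    rw [← intervalIntegral.integral_const_mul]
    congr 1
    funext s
    ring
  rw [← h2, h1, h0, sub_zero]

/-- The integral of a positive ground state is positive. -/
private lemma groundProps_int_pos {s₁ s₂ κ : ℝ} (hs : s₁ < s₂) {Q Y Y' Y'' : ℝ → ℝ}
    (hY : NeumannMode s₁ s₂ (fun s => -(κ + Q s)) Y Y' Y'')
    (hpos : ∀ s ∈ Icc s₁ s₂, 0 < Y s) : 0 < ∫ s in s₁..s₂, Y s :=
  intervalIntegral.intervalIntegral_pos_of_pos_on (hY.cont.intervalIntegrable _ _)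
    (fun x hx => hpos x (Ioo_subset_Icc_self hx)) hs

/-- If `Q + e ≥ 0` on `[s₁,s₂]` then the ground state eigenvalue satisfies `κ ≤ e`. -/
theorem ground_le {s₁ s₂ κ e : ℝ} (hs : s₁ < s₂) {Q Y Y' Y'' : ℝ → ℝ} (hQ : Continuous Q)
    (hY : NeumannMode s₁ s₂ (fun s => -(κ + Q s)) Y Y' Y'')
    (hpos : ∀ s ∈ Icc s₁ s₂, 0 < Y s) (hQe : ∀ s ∈ Icc s₁ s₂, 0 ≤ Q s + e) : 0 ≤ e - κ := by
  have hI := groundProps_int_pos hs hY hpos
  have hid := groundProps_identity (e := e) hs.le hQ hY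
  have hnn : 0 ≤ ∫ s in s₁..s₂, (Q s + e) * Y s :=
    intervalIntegral.integral_nonneg hs.le (fun s hsm => mul_nonneg (hQe s hsm) (hpos s hsm).le)
  rw [← hid] at hnn
  exact (mul_nonneg_iff_of_pos_right hI).mp hnn

/-- If `Q + e > 0` on `(s₁,s₂]` then the ground state eigenvalue satisfies `κ < e`. -/
theorem ground_lt {s₁ s₂ κ e : ℝ} (hs : s₁ < s₂) {Q Y Y' Y'' : ℝ → ℝ} (hQ : Continuous Q)
    (hY : NeumannMode s₁ s₂ (fun s => -(κ + Q s)) Y Y' Y'')
    (hpos : ∀ s ∈ Icc s₁ s₂, 0 < Y s) (hQe : ∀ s ∈ Ioc s₁ s₂, 0 < Q s + e) : 0 < e - κ := by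
  have hI := groundProps_int_pos hs hY hpos
  have hid := groundProps_identity (e := e) hs.le hQ hY
  have hc1 : Continuous (fun s => (Q s + e) * Y s) := (hQ.add continuous_const).mul hY.cont
  have hp : 0 < ∫ s in s₁..s₂, (Q s + e) * Y s :=
    intervalIntegral.intervalIntegral_pos_of_pos_on (hc1.intervalIntegrable _ _)
      (fun x hx => mul_pos (hQe x (Ioo_subset_Ioc_self hx)) (hpos x (Ioo_subset_Icc_self hx))) hs
  rw [← hid] at hp
  exact (mul_pos_iff_of_pos_right hI).mp hp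

/-- For a nondecreasing coefficient `Q` the positive ground state is nondecreasing. -/
theorem ground_deriv_nonneg {s₁ s₂ κ : ℝ} (hs : s₁ < s₂) {Q Y Y' Y'' : ℝ → ℝ} (hQ : Continuous Q)
    (hY : NeumannMode s₁ s₂ (fun s => -(κ + Q s)) Y Y' Y'')
    (hpos : ∀ s ∈ Icc s₁ s₂, 0 < Y s) (hmono : MonotoneOn Q (Icc s₁ s₂)) :
    ∀ s ∈ Icc s₁ s₂, 0 ≤ Y' s := by
  intro s hsm
  have hlin : ∫ t in s₁..s, -(κ + Q t) * Y t = Y' s := hY.linear (t₀ := s) hsm
  have hc2 : Continuous (fun s => (κ + Q s) * Y s) := (continuous_const.add hQ).mul hY.cont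
  rcases le_or_gt (κ + Q s) 0 with hcase | hcase
  · rw [← hlin]
    apply intervalIntegral.integral_nonneg hsm.1
    intro t ht
    have ht' : t ∈ Icc s₁ s₂ := ⟨ht.1, ht.2.trans hsm.2⟩
    have h1 : Q t ≤ Q s := hmono ht' hsm ht.2
    have h2 := hpos t ht'
    exact mul_nonneg (by linarith) h2.le
  · have h0 := ground_int_zero hs.le hY
    have hadj : (∫ t in s₁..s, (κ + Q t) * Y t) + ∫ t in s..s₂, (κ + Q t) * Y t
        = ∫ t in s₁..s₂, (κ + Q t) * Y t :=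
      intervalIntegral.integral_add_adjacent_intervals (hc2.intervalIntegrable s₁ s)
        (hc2.intervalIntegrable s s₂)
    have hR : 0 ≤ ∫ t in s..s₂, (κ + Q t) * Y t := by
      apply intervalIntegral.integral_nonneg hsm.2
      intro t ht
      have ht' : t ∈ Icc s₁ s₂ := ⟨hsm.1.trans ht.1, ht.2⟩
      have h1 : Q s ≤ Q t := hmono hsm ht' ht.1
      have h2 := hpos t ht'
      have h3 : 0 ≤ κ + Q t := by linarith
      exact mul_nonneg h3 h2.le
    have hneg : ∫ t in s₁..s, -(κ + Q t) * Y t = -∫ t in s₁..s, (κ + Q t) * Y t := by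
      rw [← intervalIntegral.integral_neg]
      congr 1
      funext t
      ring
    rw [← hlin, hneg]
    linarith

end Vale.Agent.Lib.P071.LR
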