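import Mathlib
import Vale.Agent.Lib.P071.LR.Defs

namespace Vale.Agent.Lib.P071.LR

open Set MeasureTheory Real Filter Topology
open Vale.Agent.Lib.P071

lemma mincore_congr {a b : ℝ} {f g : ℝ → ℝ} (h : ∀ t, f t = g t) :
    ∫ t in a..b, f t = ∫ t in a..b, g t := by
  have e : f = g := funext h
  rw [e]

lemma mincore_lin2 {a b : ℝ} {f g : ℝ → ℝ} (hf : Continuous f) (hg : Continuous g)
    (c1 c2 : ℝ) :
    ∫ t in a..b, (c1 * f t + c2 * g t)
      = c1 * (∫ t in a..b, f t) + c2 * ∫ t in a..b, g t := by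
  have h1 : IntervalIntegrable (fun t => c1 * f t) volume a b :=
    (continuous_const.mul hf).intervalIntegrable a b
  have h2 : IntervalIntegrable (fun t => c2 * g t) volume a b :=
    (continuous_const.mul hg).intervalIntegrable a b
  rw [intervalIntegral.integral_add h1 h2, intervalIntegral.integral_const_mul,
    intervalIntegral.integral_const_mul]

lemma mincore_lin3 {a b : ℝ} {f g h : ℝ → ℝ} (hf : Continuous f) (hg : Continuous g)
    (hh : Continuous h) (c1 c2 c3 : ℝ) :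
    ∫ t in a..b, (c1 * f t + c2 * g t + c3 * h t)
      = c1 * (∫ t in a..b, f t) + c2 * (∫ t in a..b, g t) + c3 * ∫ t in a..b, h t := by
  have h1 : IntervalIntegrable (fun t => c1 * f t + c2 * g t) volume a b :=
    ((continuous_const.mul hf).add (continuous_const.mul hg)).intervalIntegrable a b
  have h2 : IntervalIntegrable (fun t => c3 * h t) volume a b :=
    (continuous_const.mul hh).intervalIntegrable a b
  rw [intervalIntegral.integral_add h1 h2, mincore_lin2 hf hg,
    intervalIntegral.integral_const_mul]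

/-- If the form `∫ (c'² - P c²)` is nonnegative on all `c` with `∫ P c = 0`, and `X` is a
positive Neumann solution of `X'' = -(τ + P) X` with `τ < 0`, then the form is nonnegative on
all `φ` orthogonal to `X`. -/
theorem min1_core {t₁ t₂ τ : ℝ} (ht : t₁ < t₂) {P X X' X'' : ℝ → ℝ} (hP : Continuous P)
    (hX : NeumannMode t₁ t₂ (fun t => -(τ + P t)) X X' X'') (hτ : τ < 0)
    (hXpos : ∀ t ∈ Icc t₁ t₂, 0 < X t)
    (hprod : ∀ c c' : ℝ → ℝ, (∀ t, HasDerivAt c (c' t) t) → Continuous c' →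
      (∫ t in t₁..t₂, P t * c t) = 0 → 0 ≤ ∫ t in t₁..t₂, (c' t ^ 2 - P t * c t ^ 2)) :
    Min1 t₁ t₂ P X := by
  intro φ φ' hφ hφ' horth
  have cX : Continuous X := hX.cont
  have cX' : Continuous X' := hX.cont'
  have cφ : Continuous φ := continuous_iff_continuousAt.2 fun t => (hφ t).continuousAt
  have ht2 : t₂ ∈ Icc t₁ t₂ := ⟨ht.le, le_rfl⟩
  have cPX : Continuous (fun t => P t * X t) := hP.mul cX
  have cXsq : Continuous (fun t => X t ^ 2) := cX.pow 2
  have cD1 : Continuous (fun t => X' t ^ 2 - P t * X t ^ 2) :=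
    (cX'.pow 2).sub (hP.mul (cX.pow 2))
  have cD2 : Continuous (fun t => X' t * φ' t - P t * X t * φ t) :=
    (cX'.mul hφ').sub ((hP.mul cX).mul cφ)
  have cD3 : Continuous (fun t => φ' t ^ 2 - P t * φ t ^ 2) :=
    (hφ'.pow 2).sub (hP.mul (cφ.pow 2))
  have cφX : Continuous (fun t => φ t * X t) := cφ.mul cX
  have cPφ : Continuous (fun t => P t * φ t) := hP.mul cφ
  have hF1 : (∫ t in t₁..t₂, P t * X t) = -τ * ∫ t in t₁..t₂, X t := by
    have h : (∫ t in t₁..t₂, -(τ + P t) * X t) = 0 := by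
      have h0 := hX.linear ht2
      rw [hX.n2] at h0
      exact h0
    have e : (∫ t in t₁..t₂, -(τ + P t) * X t)
        = (-τ) * (∫ t in t₁..t₂, X t) + (-1) * ∫ t in t₁..t₂, P t * X t := by
      rw [← mincore_lin2 cX cPX]
      exact mincore_congr (fun t => by ring)
    linarith
  have hapos : 0 < ∫ t in t₁..t₂, X t :=
    intervalIntegral.intervalIntegral_pos_of_pos_on (cX.intervalIntegrable _ _)
      (fun t ht' => hXpos t ⟨ht'.1.le, ht'.2.le⟩) ht
  have hm : (∫ t in t₁..t₂, P t * X t) ≠ 0 := by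
    rw [hF1]
    have hpos : 0 < -τ * ∫ t in t₁..t₂, X t := mul_pos (by linarith) hapos
    exact hpos.ne'
  have hG1 : (∫ t in t₁..t₂, (X' t ^ 2 - P t * X t ^ 2)) = τ * ∫ t in t₁..t₂, X t ^ 2 := by
    have h : (∫ t in t₁..t₂, (X' t ^ 2 + -(τ + P t) * X t ^ 2)) = 0 := by
      have h0 := hX.energy ht2
      rw [hX.n2, mul_zero] at h0
      exact h0
    have e : (∫ t in t₁..t₂, (X' t ^ 2 + -(τ + P t) * X t ^ 2))
        = 1 * (∫ t in t₁..t₂, (X' t ^ 2 - P t * X t ^ 2))
          + (-τ) * ∫ t in t₁..t₂, X t ^ 2 := by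
      rw [← mincore_lin2 cD1 cXsq]
      exact mincore_congr (fun t => by ring)
    linarith
  have hG2 : (∫ t in t₁..t₂, (X' t * φ' t - P t * X t * φ t)) = 0 := by
    have hd : ∀ t, HasDerivAt (fun t => X' t * φ t) (X'' t * φ t + X' t * φ' t) t := fun t =>
      (hX.d2 t).mul (hφ t)
    have hcont : Continuous (fun t => X'' t * φ t + X' t * φ' t) :=
      (hX.c2.mul cφ).add (cX'.mul hφ')
    have hftc := intervalIntegral.integral_eq_sub_of_hasDerivAt (a := t₁) (b := t₂)
      (fun t _ => hd t) (hcont.intervalIntegrable _ _)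
    have hcongr : (∫ t in t₁..t₂, (X'' t * φ t + X' t * φ' t))
        = ∫ t in t₁..t₂, (1 * (X' t * φ' t - P t * X t * φ t) + (-τ) * (φ t * X t)) := by
      apply intervalIntegral.integral_congr
      intro t ht'
      rw [uIcc_of_le ht.le] at ht'
      have ho : X'' t = -(τ + P t) * X t := hX.ode t ht'
      show X'' t * φ t + X' t * φ' t
        = 1 * (X' t * φ' t - P t * X t * φ t) + (-τ) * (φ t * X t)
      rw [ho]
      ring
    rw [hcongr, mincore_lin2 cD2 cφX, horth, hX.n1, hX.n2] at hftc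
    linarith
  obtain ⟨α, hα⟩ : ∃ α : ℝ,
      α * (∫ t in t₁..t₂, P t * X t) + ∫ t in t₁..t₂, P t * φ t = 0 := by
    refine ⟨-(∫ t in t₁..t₂, P t * φ t) / (∫ t in t₁..t₂, P t * X t), ?_⟩
    field_simp
    ring
  have hc : ∀ t, HasDerivAt (fun t => α * X t + φ t) (α * X' t + φ' t) t := fun t =>
    ((hX.d1 t).const_mul α).add (hφ t)
  have hc' : Continuous (fun t => α * X' t + φ' t) := (continuous_const.mul cX').add hφ'
  have hE1 : (∫ t in t₁..t₂, P t * (α * X t + φ t)) = 0 := by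
    have e : (∫ t in t₁..t₂, P t * (α * X t + φ t))
        = α * (∫ t in t₁..t₂, P t * X t) + 1 * ∫ t in t₁..t₂, P t * φ t := by
      rw [← mincore_lin2 cPX cPφ]
      exact mincore_congr (fun t => by ring)
    rw [e]
    linarith
  have hmain : 0 ≤ ∫ t in t₁..t₂, ((α * X' t + φ' t) ^ 2 - P t * (α * X t + φ t) ^ 2) :=
    hprod (fun t => α * X t + φ t) (fun t => α * X' t + φ' t) hc hc' hE1
  have hE2 : (∫ t in t₁..t₂, ((α * X' t + φ' t) ^ 2 - P t * (α * X t + φ t) ^ 2))
      = α ^ 2 * (∫ t in t₁..t₂, (X' t ^ 2 - P t * X t ^ 2))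
        + 2 * α * (∫ t in t₁..t₂, (X' t * φ' t - P t * X t * φ t))
        + 1 * ∫ t in t₁..t₂, (φ' t ^ 2 - P t * φ t ^ 2) := by
    rw [← mincore_lin3 cD1 cD2 cD3]
    exact mincore_congr (fun t => by ring)
  rw [hE2, hG1, hG2] at hmain
  have hs : 0 ≤ ∫ t in t₁..t₂, X t ^ 2 :=
    intervalIntegral.integral_nonneg ht.le (fun t _ => sq_nonneg _)
  have hneg : 0 ≤ α ^ 2 * (∫ t in t₁..t₂, X t ^ 2) * (-τ) :=
    mul_nonneg (mul_nonneg (sq_nonneg α) hs) (by linarith)
  linarith

end Vale.Agent.Lib.P071.LR
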