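import Mathlib
import Vale.Agent.Lib.P071.LR.Defs
import Vale.Agent.Lib.P071.Stopped
import Vale.Agent.Lib.P071.Reduce

namespace Vale.Agent.Lib.P071.LR

open Set MeasureTheory Real Filter Topology
open Vale.Agent.Lib.P071

/-- A product of two bounded Lipschitz functions of separate variables is Lipschitz. -/
theorem product_lip {K₁ K₂ : NNReal} {C D : ℝ → ℝ} (hC : LipschitzWith K₁ C)
    (hD : LipschitzWith K₂ D) {M₁ M₂ : ℝ} (hM₁ : ∀ t, |C t| ≤ M₁) (hM₂ : ∀ t, |D t| ≤ M₂) :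
    ∃ K : NNReal, LipschitzWith K (fun p : ℝ × ℝ => C p.1 * D p.2) := by
  have hM₁0 : 0 ≤ M₁ := le_trans (abs_nonneg _) (hM₁ 0)
  have hM₂0 : 0 ≤ M₂ := le_trans (abs_nonneg _) (hM₂ 0)
  refine ⟨K₁ * Real.toNNReal M₂ + Real.toNNReal M₁ * K₂, LipschitzWith.of_dist_le_mul ?_⟩
  intro p q
  rw [Real.dist_eq, Prod.dist_eq, Real.dist_eq, Real.dist_eq]
  have h1 : |C p.1 - C q.1| ≤ K₁ * |p.1 - q.1| := by
    have := hC.dist_le_mul p.1 q.1
    rwa [Real.dist_eq, Real.dist_eq] at this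
  have h2 : |D p.2 - D q.2| ≤ K₂ * |p.2 - q.2| := by
    have := hD.dist_le_mul p.2 q.2
    rwa [Real.dist_eq, Real.dist_eq] at this
  have e : C p.1 * D p.2 - C q.1 * D q.2
      = (C p.1 - C q.1) * D p.2 + C q.1 * (D p.2 - D q.2) := by ring
  rw [e]
  have hK₁ : (0 : ℝ) ≤ K₁ := K₁.coe_nonneg
  have hK₂ : (0 : ℝ) ≤ K₂ := K₂.coe_nonneg
  have h4 : |(C p.1 - C q.1) * D p.2| ≤ K₁ * M₂ * |p.1 - q.1| := by
    rw [abs_mul]
    calc |C p.1 - C q.1| * |D p.2| ≤ (K₁ * |p.1 - q.1|) * M₂ :=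
          mul_le_mul h1 (hM₂ _) (abs_nonneg _) (mul_nonneg hK₁ (abs_nonneg _))
      _ = K₁ * M₂ * |p.1 - q.1| := by ring
  have h5 : |C q.1 * (D p.2 - D q.2)| ≤ M₁ * K₂ * |p.2 - q.2| := by
    rw [abs_mul]
    calc |C q.1| * |D p.2 - D q.2| ≤ M₁ * (K₂ * |p.2 - q.2|) :=
          mul_le_mul (hM₁ _) h2 (abs_nonneg _) hM₁0
      _ = M₁ * K₂ * |p.2 - q.2| := by ring
  have h6 : |p.1 - q.1| ≤ max |p.1 - q.1| |p.2 - q.2| := le_max_left _ _
  have h7 : |p.2 - q.2| ≤ max |p.1 - q.1| |p.2 - q.2| := le_max_right _ _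
  have hcoe : ((K₁ * Real.toNNReal M₂ + Real.toNNReal M₁ * K₂ : NNReal) : ℝ)
      = K₁ * M₂ + M₁ * K₂ := by
    rw [NNReal.coe_add, NNReal.coe_mul, NNReal.coe_mul, Real.coe_toNNReal _ hM₂0,
      Real.coe_toNNReal _ hM₁0]
  rw [hcoe]
  calc |(C p.1 - C q.1) * D p.2 + C q.1 * (D p.2 - D q.2)|
      ≤ |(C p.1 - C q.1) * D p.2| + |C q.1 * (D p.2 - D q.2)| := abs_add_le _ _
    _ ≤ K₁ * M₂ * |p.1 - q.1| + M₁ * K₂ * |p.2 - q.2| := add_le_add h4 h5
    _ ≤ K₁ * M₂ * max |p.1 - q.1| |p.2 - q.2| + M₁ * K₂ * max |p.1 - q.1| |p.2 - q.2| :=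
        add_le_add (mul_le_mul_of_nonneg_left h6 (mul_nonneg hK₁ hM₂0))
          (mul_le_mul_of_nonneg_left h7 (mul_nonneg hM₁0 hK₂))
    _ = (K₁ * M₂ + M₁ * K₂) * max |p.1 - q.1| |p.2 - q.2| := by ring

/-- The variational hypothesis tested on a product `c x * d y` of two continuously
differentiable functions. -/
theorem rayleigh_product {x₁ x₂ y₁ y₂ μ : ℝ} (hx : x₁ ≤ x₂) (hy : y₁ ≤ y₂) {f g : ℝ → ℝ}
    (hf : Continuous f) (hg : Continuous g) (hmin : RayleighMin2 x₁ x₂ y₁ y₂ μ f g)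
    {c c' d d' : ℝ → ℝ} (hc : ∀ t, HasDerivAt c (c' t) t) (hc' : Continuous c')
    (hd : ∀ t, HasDerivAt d (d' t) t) (hd' : Continuous d')
    (hmean : (∫ x in x₁..x₂, f x * c x) * (∫ y in y₁..y₂, d y)
      + (∫ x in x₁..x₂, c x) * (∫ y in y₁..y₂, g y * d y) = 0) :
    μ * ((∫ x in x₁..x₂, f x * c x ^ 2) * (∫ y in y₁..y₂, d y ^ 2)
        + (∫ x in x₁..x₂, c x ^ 2) * (∫ y in y₁..y₂, g y * d y ^ 2))
      ≤ (∫ x in x₁..x₂, c' x ^ 2) * (∫ y in y₁..y₂, d y ^ 2)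
        + (∫ x in x₁..x₂, c x ^ 2) * (∫ y in y₁..y₂, d' y ^ 2) := by
  have hcc : Continuous c := continuous_iff_continuousAt.mpr (fun t => (hc t).continuousAt)
  have hdc : Continuous d := continuous_iff_continuousAt.mpr (fun t => (hd t).continuousAt)
  obtain ⟨C, hCdef⟩ : ∃ C : ℝ → ℝ, C = fun t => stopped c x₁ x₂ t + 0 := ⟨_, rfl⟩
  obtain ⟨D, hDdef⟩ : ∃ D : ℝ → ℝ, D = fun t => stopped d y₁ y₂ t + 0 := ⟨_, rfl⟩
  obtain ⟨K₁, hCl⟩ : ∃ K₁ : NNReal, LipschitzWith K₁ C := by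
    rw [hCdef]
    exact stopped_lipschitz hc hc' hx 0
  obtain ⟨K₂, hDl⟩ : ∃ K₂ : NNReal, LipschitzWith K₂ D := by
    rw [hDdef]
    exact stopped_lipschitz hd hd' hy 0
  obtain ⟨M₁, hCb⟩ : ∃ M₁ : ℝ, ∀ t, |C t| ≤ M₁ := by
    rw [hCdef]
    exact stopped_bounded hcc hx 0
  obtain ⟨M₂, hDb⟩ : ∃ M₂ : ℝ, ∀ t, |D t| ≤ M₂ := by
    rw [hDdef]
    exact stopped_bounded hdc hy 0
  have hCeq : ∀ t ∈ Icc x₁ x₂, C t = c t := by
    intro t ht
    rw [hCdef]
    show stopped c x₁ x₂ t + 0 = c t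
    rw [stopped_eq_of_mem c ht, add_zero]
  have hDeq : ∀ t ∈ Icc y₁ y₂, D t = d t := by
    intro t ht
    rw [hDdef]
    show stopped d y₁ y₂ t + 0 = d t
    rw [stopped_eq_of_mem d ht, add_zero]
  have hCd : ∫ t in x₁..x₂, deriv C t ^ 2 = ∫ t in x₁..x₂, c' t ^ 2 := by
    rw [hCdef]
    exact integral_deriv_stopped_sq hc hc' hx le_rfl 0
  have hDd : ∫ t in y₁..y₂, deriv D t ^ 2 = ∫ t in y₁..y₂, d' t ^ 2 := by
    rw [hDdef]
    exact integral_deriv_stopped_sq hd hd' hy le_rfl 0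
  have hCc : Continuous C := hCl.continuous
  have hDc : Continuous D := hDl.continuous
  obtain ⟨K, hlip⟩ := product_lip hCl hDl hCb hDb
  obtain ⟨m₀, hm₀⟩ : ∃ m₀ : ℝ, m₀ = ∫ y in y₁..y₂, d y := ⟨_, rfl⟩
  obtain ⟨m₁, hm₁⟩ : ∃ m₁ : ℝ, m₁ = ∫ y in y₁..y₂, g y * d y := ⟨_, rfl⟩
  obtain ⟨n₀, hn₀⟩ : ∃ n₀ : ℝ, n₀ = ∫ y in y₁..y₂, d y ^ 2 := ⟨_, rfl⟩
  obtain ⟨n₁, hn₁⟩ : ∃ n₁ : ℝ, n₁ = ∫ y in y₁..y₂, g y * d y ^ 2 := ⟨_, rfl⟩
  obtain ⟨e₀, he₀⟩ : ∃ e₀ : ℝ, e₀ = ∫ y in y₁..y₂, d' y ^ 2 := ⟨_, rfl⟩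
  rw [← hm₀, ← hm₁] at hmean
  rw [← hn₀, ← hn₁, ← he₀]
  have h_in1 : ∀ x, ∫ y in y₁..y₂, (f x + g y) * (C x * D y) = C x * (f x * m₀ + m₁) := by
    intro x
    have e : ∫ y in y₁..y₂, (f x + g y) * (C x * D y)
        = ∫ y in y₁..y₂, ((C x * f x) * d y + C x * (g y * d y)) := by
      apply intervalIntegral.integral_congr
      intro y hy'
      rw [uIcc_of_le hy] at hy'
      show (f x + g y) * (C x * D y) = (C x * f x) * d y + C x * (g y * d y)
      rw [hDeq y hy']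
      ring
    rw [e, intervalIntegral.integral_add, intervalIntegral.integral_const_mul,
      intervalIntegral.integral_const_mul, ← hm₀, ← hm₁]
    · ring
    · exact (continuous_const.mul hdc).intervalIntegrable _ _
    · exact (continuous_const.mul (hg.mul hdc)).intervalIntegrable _ _
  have h_in2 : ∀ x, ∫ y in y₁..y₂, (f x + g y) * (C x * D y) ^ 2
      = C x ^ 2 * (f x * n₀ + n₁) := by
    intro x
    have e : ∫ y in y₁..y₂, (f x + g y) * (C x * D y) ^ 2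
        = ∫ y in y₁..y₂, ((C x ^ 2 * f x) * d y ^ 2 + C x ^ 2 * (g y * d y ^ 2)) := by
      apply intervalIntegral.integral_congr
      intro y hy'
      rw [uIcc_of_le hy] at hy'
      show (f x + g y) * (C x * D y) ^ 2 = (C x ^ 2 * f x) * d y ^ 2 + C x ^ 2 * (g y * d y ^ 2)
      rw [hDeq y hy']
      ring
    rw [e, intervalIntegral.integral_add, intervalIntegral.integral_const_mul,
      intervalIntegral.integral_const_mul, ← hn₀, ← hn₁]
    · ring
    · exact (continuous_const.mul (hdc.pow 2)).intervalIntegrable _ _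
    · exact (continuous_const.mul (hg.mul (hdc.pow 2))).intervalIntegrable _ _
  have hD2 : ∫ y in y₁..y₂, D y ^ 2 = n₀ := by
    rw [hn₀]
    apply intervalIntegral.integral_congr
    intro y hy'
    rw [uIcc_of_le hy] at hy'
    show D y ^ 2 = d y ^ 2
    rw [hDeq y hy']
  have h_in3 : ∀ x, ∫ y in y₁..y₂,
      (deriv (fun r => C r * D y) x ^ 2 + deriv (fun r => C x * D r) y ^ 2)
      = deriv C x ^ 2 * n₀ + C x ^ 2 * e₀ := by
    intro x
    have d1 : ∀ y : ℝ, deriv (fun r => C r * D y) x = deriv C x * D y :=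
      fun y => deriv_mul_const_field _
    have d2 : ∀ y : ℝ, deriv (fun r => C x * D r) y = C x * deriv D y :=
      fun y => deriv_const_mul_field _
    have e : (fun y : ℝ => deriv (fun r => C r * D y) x ^ 2 + deriv (fun r => C x * D r) y ^ 2)
        = fun y => deriv C x ^ 2 * D y ^ 2 + C x ^ 2 * deriv D y ^ 2 := by
      funext y
      rw [d1, d2]
      ring
    rw [e]
    have hi1 : IntervalIntegrable (fun y => deriv C x ^ 2 * D y ^ 2) volume y₁ y₂ :=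
      (continuous_const.mul (hDc.pow 2)).intervalIntegrable _ _
    have hi2 : IntervalIntegrable (fun y => C x ^ 2 * deriv D y ^ 2) volume y₁ y₂ :=
      (reduce_deriv_sq_integrable hDl y₁ y₂).const_mul _
    rw [intervalIntegral.integral_add hi1 hi2, intervalIntegral.integral_const_mul,
      intervalIntegral.integral_const_mul, hDd, ← he₀, hD2]
  have hmean' : (∫ x in x₁..x₂, ∫ y in y₁..y₂,
      (f x + g y) * (fun z : ℝ × ℝ => C z.1 * D z.2) (x, y)) = 0 := by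
    simp only [h_in1]
    have e : ∫ x in x₁..x₂, C x * (f x * m₀ + m₁)
        = ∫ x in x₁..x₂, ((f x * c x) * m₀ + c x * m₁) := by
      apply intervalIntegral.integral_congr
      intro x hx'
      rw [uIcc_of_le hx] at hx'
      show C x * (f x * m₀ + m₁) = (f x * c x) * m₀ + c x * m₁
      rw [hCeq x hx']
      ring
    rw [e, intervalIntegral.integral_add, intervalIntegral.integral_mul_const,
      intervalIntegral.integral_mul_const]
    · exact hmean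
    · exact ((hf.mul hcc).mul continuous_const).intervalIntegrable _ _
    · exact (hcc.mul continuous_const).intervalIntegrable _ _
  have key := hmin K _ hlip hmean'
  simp only [h_in2, h_in3] at key
  have eL : ∫ x in x₁..x₂, C x ^ 2 * (f x * n₀ + n₁)
      = (∫ x in x₁..x₂, f x * c x ^ 2) * n₀ + (∫ x in x₁..x₂, c x ^ 2) * n₁ := by
    have e : ∫ x in x₁..x₂, C x ^ 2 * (f x * n₀ + n₁)
        = ∫ x in x₁..x₂, ((f x * c x ^ 2) * n₀ + c x ^ 2 * n₁) := by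
      apply intervalIntegral.integral_congr
      intro x hx'
      rw [uIcc_of_le hx] at hx'
      show C x ^ 2 * (f x * n₀ + n₁) = (f x * c x ^ 2) * n₀ + c x ^ 2 * n₁
      rw [hCeq x hx']
      ring
    rw [e, intervalIntegral.integral_add, intervalIntegral.integral_mul_const,
      intervalIntegral.integral_mul_const]
    · exact ((hf.mul (hcc.pow 2)).mul continuous_const).intervalIntegrable _ _
    · exact ((hcc.pow 2).mul continuous_const).intervalIntegrable _ _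
  have eR : ∫ x in x₁..x₂, (deriv C x ^ 2 * n₀ + C x ^ 2 * e₀)
      = (∫ x in x₁..x₂, c' x ^ 2) * n₀ + (∫ x in x₁..x₂, c x ^ 2) * e₀ := by
    have hi1 : IntervalIntegrable (fun x => deriv C x ^ 2 * n₀) volume x₁ x₂ :=
      (reduce_deriv_sq_integrable hCl x₁ x₂).mul_const _
    have hi2 : IntervalIntegrable (fun x => C x ^ 2 * e₀) volume x₁ x₂ :=
      ((hCc.pow 2).mul continuous_const).intervalIntegrable _ _
    have e2 : ∫ x in x₁..x₂, C x ^ 2 = ∫ x in x₁..x₂, c x ^ 2 := by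
      apply intervalIntegral.integral_congr
      intro x hx'
      rw [uIcc_of_le hx] at hx'
      show C x ^ 2 = c x ^ 2
      rw [hCeq x hx']
    rw [intervalIntegral.integral_add hi1 hi2, intervalIntegral.integral_mul_const,
      intervalIntegral.integral_mul_const, hCd, e2]
  rw [eL, eR] at key
  exact key

end Vale.Agent.Lib.P071.LR
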