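import Mathlib
import Vale.Agent.Lib.P071.LR.Defs
import Vale.Agent.Lib.P071.LR.Product
import Vale.Agent.Lib.P071.LR.MinCore

namespace Vale.Agent.Lib.P071.LR

open Set MeasureTheory Real Filter Topology
open Vale.Agent.Lib.P071

/-- Linearity of the weighted mean. -/
theorem minimal_lin1 {a b μ κ : ℝ} {h φ : ℝ → ℝ} (hh : Continuous h) (hφ : Continuous φ) :
    ∫ t in a..b, (μ * h t - κ) * φ t
      = μ * (∫ t in a..b, h t * φ t) - κ * ∫ t in a..b, φ t := by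
  have e : (fun t => (μ * h t - κ) * φ t) = fun t => μ * (h t * φ t) - κ * φ t := by
    funext t
    ring
  rw [e, intervalIntegral.integral_sub, intervalIntegral.integral_const_mul,
    intervalIntegral.integral_const_mul]
  · exact (continuous_const.mul (hh.mul hφ)).intervalIntegrable _ _
  · exact (continuous_const.mul hφ).intervalIntegrable _ _

/-- Linearity of the quadratic form. -/
theorem minimal_lin2 {a b μ κ : ℝ} {h φ φ' : ℝ → ℝ} (hh : Continuous h) (hφ : Continuous φ)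
    (hφ' : Continuous φ') :
    ∫ t in a..b, (φ' t ^ 2 - (μ * h t - κ) * φ t ^ 2)
      = (∫ t in a..b, φ' t ^ 2)
        - (μ * (∫ t in a..b, h t * φ t ^ 2) - κ * ∫ t in a..b, φ t ^ 2) := by
  have e : (fun t => φ' t ^ 2 - (μ * h t - κ) * φ t ^ 2)
      = fun t => φ' t ^ 2 - (μ * (h t * φ t ^ 2) - κ * φ t ^ 2) := by
    funext t
    ring
  rw [e, intervalIntegral.integral_sub, intervalIntegral.integral_sub,
    intervalIntegral.integral_const_mul, intervalIntegral.integral_const_mul]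
  · exact (continuous_const.mul (hh.mul (hφ.pow 2))).intervalIntegrable _ _
  · exact (continuous_const.mul (hφ.pow 2)).intervalIntegrable _ _
  · exact (hφ'.pow 2).intervalIntegrable _ _
  · exact ((continuous_const.mul (hh.mul (hφ.pow 2))).sub
      (continuous_const.mul (hφ.pow 2))).intervalIntegrable _ _

/-- The identities of a positive Neumann mode of `Z'' = -(τ₀ + ν h) Z`. -/
theorem minimal_ground {t₁ t₂ τ₀ ν : ℝ} (ht : t₁ < t₂) {h : ℝ → ℝ} (hh : Continuous h)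
    {Z Z' Z'' : ℝ → ℝ} (hZ : NeumannMode t₁ t₂ (fun t => -(τ₀ + ν * h t)) Z Z' Z'')
    (hZpos : ∀ t ∈ Icc t₁ t₂, 0 < Z t) :
    τ₀ * (∫ t in t₁..t₂, Z t) + ν * (∫ t in t₁..t₂, h t * Z t) = 0 ∧
    (∫ t in t₁..t₂, Z' t ^ 2)
      = τ₀ * (∫ t in t₁..t₂, Z t ^ 2) + ν * (∫ t in t₁..t₂, h t * Z t ^ 2) ∧
    0 < ∫ t in t₁..t₂, Z t ^ 2 := by
  have hZc : Continuous Z := hZ.cont
  have hZc' : Continuous Z' := hZ.cont'
  refine ⟨?_, ?_, ?_⟩
  · have h1 := hZ.linear (right_mem_Icc.mpr ht.le)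
    rw [hZ.n2] at h1
    have e : (fun t => -(τ₀ + ν * h t) * Z t) = fun t => -(τ₀ * Z t + ν * (h t * Z t)) := by
      funext t
      ring
    rw [e, intervalIntegral.integral_neg, intervalIntegral.integral_add,
      intervalIntegral.integral_const_mul, intervalIntegral.integral_const_mul] at h1
    · linarith
    · exact (continuous_const.mul hZc).intervalIntegrable _ _
    · exact (continuous_const.mul (hh.mul hZc)).intervalIntegrable _ _
  · have h2 := hZ.energy (right_mem_Icc.mpr ht.le)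
    rw [hZ.n2, mul_zero] at h2
    have e : (fun t => Z' t ^ 2 + -(τ₀ + ν * h t) * Z t ^ 2)
        = fun t => Z' t ^ 2 - (τ₀ * Z t ^ 2 + ν * (h t * Z t ^ 2)) := by
      funext t
      ring
    rw [e, intervalIntegral.integral_sub, intervalIntegral.integral_add,
      intervalIntegral.integral_const_mul, intervalIntegral.integral_const_mul] at h2
    · linarith
    · exact (continuous_const.mul (hZc.pow 2)).intervalIntegrable _ _
    · exact (continuous_const.mul (hh.mul (hZc.pow 2))).intervalIntegrable _ _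
    · exact (hZc'.pow 2).intervalIntegrable _ _
    · exact ((continuous_const.mul (hZc.pow 2)).add
        (continuous_const.mul (hh.mul (hZc.pow 2)))).intervalIntegrable _ _
  · exact intervalIntegral.intervalIntegral_pos_of_pos_on
      ((hZc.pow 2).intervalIntegrable _ _)
      (fun x hx => pow_pos (hZpos x (Ioo_subset_Icc_self hx)) 2) ht

/-- The one-dimensional form in `x` is nonnegative on the functions of weighted mean zero. -/
theorem minimal_hprod_x {x₁ x₂ y₁ y₂ μ κ : ℝ} (hx : x₁ ≤ x₂) (hy : y₁ < y₂) (hμ : 0 < μ)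
    {f g : ℝ → ℝ} (hf : Continuous f) (hg : Continuous g)
    (hmin : RayleighMin2 x₁ x₂ y₁ y₂ μ f g) {Y Y' Y'' : ℝ → ℝ}
    (hY : NeumannMode y₁ y₂ (fun y => -(κ + μ * g y)) Y Y' Y'')
    (hYpos : ∀ y ∈ Icc y₁ y₂, 0 < Y y) :
    ∀ c c' : ℝ → ℝ, (∀ t, HasDerivAt c (c' t) t) → Continuous c' →
      (∫ t in x₁..x₂, (μ * f t - κ) * c t) = 0 →
        0 ≤ ∫ t in x₁..x₂, (c' t ^ 2 - (μ * f t - κ) * c t ^ 2) := by
  intro c c' hc hc' hc0
  have hcc : Continuous c := continuous_iff_continuousAt.2 fun t => (hc t).continuousAt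
  obtain ⟨G1, G2, G3⟩ := minimal_ground hy hg hY hYpos
  rw [minimal_lin1 hf hcc] at hc0
  rw [minimal_lin2 hf hcc hc']
  have hmean : (∫ x in x₁..x₂, f x * c x) * (∫ y in y₁..y₂, Y y)
      + (∫ x in x₁..x₂, c x) * (∫ y in y₁..y₂, g y * Y y) = 0 := by
    have h1 : μ * ((∫ x in x₁..x₂, f x * c x) * (∫ y in y₁..y₂, Y y)
        + (∫ x in x₁..x₂, c x) * (∫ y in y₁..y₂, g y * Y y)) = 0 := by
      linear_combination (∫ y in y₁..y₂, Y y) * hc0 + (∫ x in x₁..x₂, c x) * G1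
    exact (mul_eq_zero.mp h1).resolve_left hμ.ne'
  have hR := rayleigh_product hx hy.le hf hg hmin hc hc' hY.d1 hY.cont' hmean
  rw [G2] at hR
  have h2 : 0 ≤ (∫ y in y₁..y₂, Y y ^ 2) * ((∫ t in x₁..x₂, c' t ^ 2)
      - (μ * (∫ t in x₁..x₂, f t * c t ^ 2) - κ * ∫ t in x₁..x₂, c t ^ 2)) := by
    linarith
  exact (mul_nonneg_iff_of_pos_left G3).mp h2

/-- The one-dimensional form in `y` is nonnegative on the functions of weighted mean zero. -/
theorem minimal_hprod_y {x₁ x₂ y₁ y₂ μ σ : ℝ} (hx : x₁ < x₂) (hy : y₁ ≤ y₂) (hμ : 0 < μ)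
    {f g : ℝ → ℝ} (hf : Continuous f) (hg : Continuous g)
    (hmin : RayleighMin2 x₁ x₂ y₁ y₂ μ f g) {X X' X'' : ℝ → ℝ}
    (hX : NeumannMode x₁ x₂ (fun x => -(σ + μ * f x)) X X' X'')
    (hXpos : ∀ x ∈ Icc x₁ x₂, 0 < X x) :
    ∀ d d' : ℝ → ℝ, (∀ t, HasDerivAt d (d' t) t) → Continuous d' →
      (∫ t in y₁..y₂, (μ * g t - σ) * d t) = 0 →
        0 ≤ ∫ t in y₁..y₂, (d' t ^ 2 - (μ * g t - σ) * d t ^ 2) := by
  intro d d' hd hd' hd0
  have hdc : Continuous d := continuous_iff_continuousAt.2 fun t => (hd t).continuousAt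
  obtain ⟨G1, G2, G3⟩ := minimal_ground hx hf hX hXpos
  rw [minimal_lin1 hg hdc] at hd0
  rw [minimal_lin2 hg hdc hd']
  have hmean : (∫ x in x₁..x₂, f x * X x) * (∫ y in y₁..y₂, d y)
      + (∫ x in x₁..x₂, X x) * (∫ y in y₁..y₂, g y * d y) = 0 := by
    have h1 : μ * ((∫ x in x₁..x₂, f x * X x) * (∫ y in y₁..y₂, d y)
        + (∫ x in x₁..x₂, X x) * (∫ y in y₁..y₂, g y * d y)) = 0 := by
      linear_combination (∫ x in x₁..x₂, X x) * hd0 + (∫ y in y₁..y₂, d y) * G1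
    exact (mul_eq_zero.mp h1).resolve_left hμ.ne'
  have hR := rayleigh_product hx.le hy hf hg hmin hX.d1 hX.cont' hd hd' hmean
  rw [G2] at hR
  have h2 : 0 ≤ (∫ x in x₁..x₂, X x ^ 2) * ((∫ t in y₁..y₂, d' t ^ 2)
      - (μ * (∫ t in y₁..y₂, g t * d t ^ 2) - σ * ∫ t in y₁..y₂, d t ^ 2)) := by
    linarith
  exact (mul_nonneg_iff_of_pos_left G3).mp h2

/-- One-dimensional minimality in the `x` variable. -/
theorem min1_x {x₁ x₂ y₁ y₂ μ σ κ : ℝ} (hx : x₁ < x₂) (hy : y₁ < y₂) (hμ : 0 < μ) {f g : ℝ → ℝ}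
    (hf : Continuous f) (hg : Continuous g) (hmin : RayleighMin2 x₁ x₂ y₁ y₂ μ f g)
    {X X' X'' Y Y' Y'' : ℝ → ℝ}
    (hX : NeumannMode x₁ x₂ (fun x => -(σ + μ * f x)) X X' X'')
    (hY : NeumannMode y₁ y₂ (fun y => -(κ + μ * g y)) Y Y' Y'')
    (hXpos : ∀ x ∈ Icc x₁ x₂, 0 < X x) (hYpos : ∀ y ∈ Icc y₁ y₂, 0 < Y y)
    (hneg : σ + κ < 0) :
    Min1 x₁ x₂ (fun x => μ * f x - κ) X := by
  have hP : Continuous (fun x => μ * f x - κ) := (continuous_const.mul hf).sub continuous_const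
  have hX' : NeumannMode x₁ x₂ (fun t => -((σ + κ) + (μ * f t - κ))) X X' X'' :=
    ⟨hX.d1, hX.d2, hX.c2, fun t ht => by rw [hX.ode t ht]; ring, hX.n1, hX.n2⟩
  exact min1_core (τ := σ + κ) (P := fun x => μ * f x - κ) hx hP hX' hneg hXpos
    (minimal_hprod_x hx.le hy hμ hf hg hmin hY hYpos)

/-- One-dimensional minimality in the `y` variable. -/
theorem min1_y {x₁ x₂ y₁ y₂ μ σ κ : ℝ} (hx : x₁ < x₂) (hy : y₁ < y₂) (hμ : 0 < μ) {f g : ℝ → ℝ}
    (hf : Continuous f) (hg : Continuous g) (hmin : RayleighMin2 x₁ x₂ y₁ y₂ μ f g)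
    {X X' X'' Y Y' Y'' : ℝ → ℝ}
    (hX : NeumannMode x₁ x₂ (fun x => -(σ + μ * f x)) X X' X'')
    (hY : NeumannMode y₁ y₂ (fun y => -(κ + μ * g y)) Y Y' Y'')
    (hXpos : ∀ x ∈ Icc x₁ x₂, 0 < X x) (hYpos : ∀ y ∈ Icc y₁ y₂, 0 < Y y)
    (hneg : σ + κ < 0) :
    Min1 y₁ y₂ (fun y => μ * g y - σ) Y := by
  have hP : Continuous (fun y => μ * g y - σ) := (continuous_const.mul hg).sub continuous_const
  have hY' : NeumannMode y₁ y₂ (fun t => -((σ + κ) + (μ * g t - σ))) Y Y' Y'' :=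
    ⟨hY.d1, hY.d2, hY.c2, fun t ht => by rw [hY.ode t ht]; ring, hY.n1, hY.n2⟩
  exact min1_core (τ := σ + κ) (P := fun y => μ * g y - σ) hy hP hY' hneg hYpos
    (minimal_hprod_y hx hy.le hμ hf hg hmin hX hXpos)

end Vale.Agent.Lib.P071.LR
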