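import Mathlib
import Vale.Agent.Lib.P071.LR.Defs

namespace Vale.Agent.Lib.P071.LR

open Set MeasureTheory Real Filter Topology
open Vale.Agent.Lib.P071

/-- Differentiation under the integral sign on `[y₁, y₂]` for jointly continuous data. -/
lemma ModeEq_hasDerivAt_integral {G G' : ℝ → ℝ → ℝ} {c : ℝ → ℝ} {y₁ y₂ : ℝ} (hy : y₁ ≤ y₂)
    (hG : Continuous (fun p : ℝ × ℝ => G p.1 p.2))
    (hG' : Continuous (fun p : ℝ × ℝ => G' p.1 p.2))
    (hc : Continuous c) (hd : ∀ x y, HasDerivAt (fun t => G t y) (G' x y) x) (x₀ : ℝ) :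
    HasDerivAt (fun x => ∫ y in y₁..y₂, G x y * c y) (∫ y in y₁..y₂, G' x₀ y * c y) x₀ := by
  have hcomp : IsCompact (Icc (x₀ - 1) (x₀ + 1) ×ˢ Icc y₁ y₂) :=
    isCompact_Icc.prod isCompact_Icc
  have hcont : Continuous (fun p : ℝ × ℝ => G' p.1 p.2 * c p.2) :=
    hG'.mul (hc.comp continuous_snd)
  obtain ⟨C, hC⟩ := hcomp.exists_bound_of_continuousOn hcont.continuousOn
  have hGx : ∀ x, Continuous (fun y => G x y * c y) := fun x =>
    (hG.comp (continuous_const.prodMk continuous_id)).mul hc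
  have hG'x : ∀ x, Continuous (fun y => G' x y * c y) := fun x =>
    (hG'.comp (continuous_const.prodMk continuous_id)).mul hc
  have h := intervalIntegral.hasDerivAt_integral_of_dominated_loc_of_deriv_le
    (μ := volume) (F := fun x y => G x y * c y) (F' := fun x y => G' x y * c y) (x₀ := x₀)
    (s := Ioo (x₀ - 1) (x₀ + 1)) (a := y₁) (b := y₂) (bound := fun _ => C)
    (Ioo_mem_nhds (by linarith) (by linarith))
    (Filter.Eventually.of_forall fun x => (hGx x).aestronglyMeasurable)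
    ((hGx x₀).intervalIntegrable y₁ y₂)
    (hG'x x₀).aestronglyMeasurable
    (Filter.Eventually.of_forall fun t ht x hx => by
      rw [uIoc_of_le hy] at ht
      exact hC (x, t) ⟨⟨hx.1.le, hx.2.le⟩, ⟨ht.1.le, ht.2⟩⟩)
    intervalIntegrable_const
    (Filter.Eventually.of_forall fun t _ x _ => (hd x t).mul_const (c t))
  exact h.2

/-- Slices of a jointly continuous function are continuous. -/
lemma ModeEq_slice {G : ℝ → ℝ → ℝ} (hG : Continuous (fun p : ℝ × ℝ => G p.1 p.2)) (x : ℝ) :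
    Continuous (fun y => G x y) :=
  hG.comp (continuous_const.prodMk continuous_id)

/-- Integrating by parts twice in `y` with Neumann data for both factors. -/
lemma ModeEq_ibp {y₁ y₂ : ℝ} {v v' v'' Y Y' Y'' : ℝ → ℝ}
    (hv : ∀ y, HasDerivAt v (v' y) y) (hv' : ∀ y, HasDerivAt v' (v'' y) y)
    (hv'c : Continuous v') (hv''c : Continuous v'')
    (hY : ∀ y, HasDerivAt Y (Y' y) y) (hY' : ∀ y, HasDerivAt Y' (Y'' y) y)
    (hY'c : Continuous Y') (hY''c : Continuous Y'')
    (hv1 : v' y₁ = 0) (hv2 : v' y₂ = 0) (hY1 : Y' y₁ = 0) (hY2 : Y' y₂ = 0) :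
    ∫ y in y₁..y₂, Y y * v'' y = ∫ y in y₁..y₂, Y'' y * v y := by
  have e1 := intervalIntegral.integral_mul_deriv_eq_deriv_mul (a := y₁) (b := y₂)
    (u := Y) (v := v') (u' := Y') (v' := v'')
    (fun y _ => hY y) (fun y _ => hv' y)
    (hY'c.intervalIntegrable _ _) (hv''c.intervalIntegrable _ _)
  have e2 := intervalIntegral.integral_mul_deriv_eq_deriv_mul (a := y₁) (b := y₂)
    (u := Y') (v := v) (u' := Y'') (v' := v')
    (fun y _ => hY' y) (fun y _ => hv y)
    (hY''c.intervalIntegrable _ _) (hv'c.intervalIntegrable _ _)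
  rw [hv1, hv2, mul_zero, mul_zero, sub_zero, zero_sub] at e1
  rw [hY1, hY2, zero_mul, zero_mul, sub_zero, zero_sub] at e2
  rw [e1, e2, neg_neg]

/-- Integrating a solution on the rectangle against a Neumann mode `Y` of the `y`-equation gives
a Neumann mode of the `x`-equation. -/
theorem mode_of_rectSol {x₁ x₂ y₁ y₂ κ : ℝ} (hy : y₁ ≤ y₂) {p q : ℝ → ℝ}
    {u ux uxx uy uyy : ℝ → ℝ → ℝ} (h : RectSol x₁ x₂ y₁ y₂ p q u ux uxx uy uyy)
    {Y Y' Y'' : ℝ → ℝ} (hY : NeumannMode y₁ y₂ (fun y => -(κ + q y)) Y Y' Y'') :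
    NeumannMode x₁ x₂ (fun x => κ - p x) (fun x => ∫ y in y₁..y₂, u x y * Y y)
      (fun x => ∫ y in y₁..y₂, ux x y * Y y) (fun x => ∫ y in y₁..y₂, uxx x y * Y y) := by
  have hYc : Continuous Y := hY.cont
  refine ⟨?_, ?_, ?_, ?_, ?_, ?_⟩
  · intro t
    exact ModeEq_hasDerivAt_integral hy h.cu h.cux hYc h.dx t
  · intro t
    exact ModeEq_hasDerivAt_integral hy h.cux h.cuxx hYc h.dxx t
  · have hunc : Continuous (Function.uncurry (fun (t θ : ℝ) => uxx t θ * Y θ)) := by
      have h1 : Continuous (fun z : ℝ × ℝ => uxx z.1 z.2 * Y z.2) :=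
        h.cuxx.mul (hYc.comp continuous_snd)
      exact h1
    exact intervalIntegral.continuous_parametric_intervalIntegral_of_continuous' hunc y₁ y₂
  · intro x hx
    have hibp := ModeEq_ibp (y₁ := y₁) (y₂ := y₂) (v := fun y => u x y) (v' := fun y => uy x y)
      (v'' := fun y => uyy x y) (Y := Y) (Y' := Y') (Y'' := Y'')
      (fun y => h.dy x y) (fun y => h.dyy x y) (ModeEq_slice h.cuy x) (ModeEq_slice h.cuyy x)
      hY.d1 hY.d2 hY.cont' hY.c2 (h.ny₁ x hx) (h.ny₂ x hx) hY.n1 hY.n2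
    have hc1 : Continuous (fun y => uxx x y * Y y) := (ModeEq_slice h.cuxx x).mul hYc
    have hc2 : Continuous (fun y => u x y * Y y) := (ModeEq_slice h.cu x).mul hYc
    have hc3 : Continuous (fun y => Y y * uyy x y) := hYc.mul (ModeEq_slice h.cuyy x)
    have hc4 : Continuous (fun y => Y'' y * u x y) := hY.c2.mul (ModeEq_slice h.cu x)
    have hpt : ∀ y ∈ uIcc y₁ y₂, uxx x y * Y y - (κ - p x) * (u x y * Y y)
        = Y'' y * u x y - Y y * uyy x y := by
      intro y hy'
      rw [uIcc_of_le hy] at hy'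
      have h1 := h.pde x hx y hy'
      have h2 := hY.ode y hy'
      have h3 : uxx x y = -(p x + q y) * u x y - uyy x y := by linarith
      rw [h2, h3]
      ring
    have hint : ∫ y in y₁..y₂, (uxx x y * Y y - (κ - p x) * (u x y * Y y))
        = ∫ y in y₁..y₂, (Y'' y * u x y - Y y * uyy x y) :=
      intervalIntegral.integral_congr hpt
    have hc5 : Continuous (fun y => (κ - p x) * (u x y * Y y)) := continuous_const.mul hc2
    have s1 : ∫ y in y₁..y₂, (uxx x y * Y y - (κ - p x) * (u x y * Y y))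
        = (∫ y in y₁..y₂, uxx x y * Y y) - (κ - p x) * ∫ y in y₁..y₂, u x y * Y y := by
      rw [intervalIntegral.integral_sub (hc1.intervalIntegrable _ _)
        (hc5.intervalIntegrable _ _), intervalIntegral.integral_const_mul]
    have s2 : ∫ y in y₁..y₂, (Y'' y * u x y - Y y * uyy x y) = 0 := by
      rw [intervalIntegral.integral_sub (hc4.intervalIntegrable _ _)
        (hc3.intervalIntegrable _ _), hibp, sub_self]
    rw [s1, s2] at hint
    show ∫ y in y₁..y₂, uxx x y * Y y = (κ - p x) * ∫ y in y₁..y₂, u x y * Y y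
    linarith
  · show ∫ y in y₁..y₂, ux x₁ y * Y y = 0
    have hpt : ∀ y ∈ uIcc y₁ y₂, ux x₁ y * Y y = 0 := by
      intro y hy'
      rw [uIcc_of_le hy] at hy'
      rw [h.nx₁ y hy', zero_mul]
    rw [intervalIntegral.integral_congr hpt, intervalIntegral.integral_zero]
  · show ∫ y in y₁..y₂, ux x₂ y * Y y = 0
    have hpt : ∀ y ∈ uIcc y₁ y₂, ux x₂ y * Y y = 0 := by
      intro y hy'
      rw [uIcc_of_le hy] at hy'
      rw [h.nx₂ y hy', zero_mul]
    rw [intervalIntegral.integral_congr hpt, intervalIntegral.integral_zero]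

/-- Two Neumann modes whose coefficients differ by a nonzero constant are orthogonal. -/
theorem mode_orth {t₁ t₂ c : ℝ} (ht : t₁ ≤ t₂) (hc : c ≠ 0)
    {Q₁ Q₂ a a' a'' b b' b'' : ℝ → ℝ}
    (ha : NeumannMode t₁ t₂ Q₁ a a' a'') (hb : NeumannMode t₁ t₂ Q₂ b b' b'')
    (hQ : ∀ t ∈ Icc t₁ t₂, Q₁ t - Q₂ t = c) : ∫ t in t₁..t₂, a t * b t = 0 := by
  have hW : ∀ t, HasDerivAt (fun t => a' t * b t - a t * b' t)
      (a'' t * b t - a t * b'' t) t := by
    intro t
    have h1 := (ha.d2 t).mul (hb.d1 t)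
    have h2 := (ha.d1 t).mul (hb.d2 t)
    have h3 := h1.sub h2
    have e : a'' t * b t + a' t * b' t - (a' t * b' t + a t * b'' t)
        = a'' t * b t - a t * b'' t := by ring
    rw [e] at h3
    exact h3
  have hcd : Continuous (fun t => a'' t * b t - a t * b'' t) :=
    (ha.c2.mul hb.cont).sub (ha.cont.mul hb.c2)
  have hftc := intervalIntegral.integral_eq_sub_of_hasDerivAt (a := t₁) (b := t₂)
    (f := fun t => a' t * b t - a t * b' t) (f' := fun t => a'' t * b t - a t * b'' t)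
    (fun t _ => hW t) (hcd.intervalIntegrable _ _)
  simp only [ha.n1, ha.n2, hb.n1, hb.n2, zero_mul, mul_zero, sub_self] at hftc
  have hpt : ∀ t ∈ uIcc t₁ t₂, a'' t * b t - a t * b'' t = c * (a t * b t) := by
    intro t ht'
    rw [uIcc_of_le ht] at ht'
    rw [ha.ode t ht', hb.ode t ht', ← hQ t ht']
    ring
  rw [intervalIntegral.integral_congr hpt, intervalIntegral.integral_const_mul] at hftc
  rcases mul_eq_zero.mp hftc with h0 | h0
  · exact absurd h0 hc
  · exact h0

end Vale.Agent.Lib.P071.LR
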