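import Mathlib
import Vale.Agent.Lib.P071.LR.Defs

namespace Vale.Agent.Lib.P071.LR

open Set MeasureTheory Real Filter Topology
open Vale.Agent.Lib.P071

/-- Truncating `a - a z` to the left of a critical point `z` of `a` gives a differentiable
function whose derivative is the truncation of `a'`. -/
theorem monotone_trunc_hasDerivAt {a a' : ℝ → ℝ} (hd : ∀ t, HasDerivAt a (a' t) t) {z : ℝ}
    (h0 : a' z = 0) (t : ℝ) :
    HasDerivAt (fun s => if s ≤ z then a s - a z else 0) (if t ≤ z then a' t else 0) t := by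
  rcases lt_trichotomy t z with hlt | heq | hgt
  · rw [if_pos hlt.le]
    have h1 : HasDerivAt (fun s => a s - a z) (a' t) t := (hd t).sub_const (a z)
    refine h1.congr_of_eventuallyEq ?_
    filter_upwards [Iio_mem_nhds hlt] with s hs
    exact if_pos (le_of_lt hs)
  · rw [heq, if_pos le_rfl, h0]
    have hleft : HasDerivWithinAt (fun s => if s ≤ z then a s - a z else 0) 0 (Iic z) z := by
      have h1 : HasDerivWithinAt (fun s => a s - a z) 0 (Iic z) z := by
        have h2 := ((hd z).sub_const (a z)).hasDerivWithinAt (s := Iic z)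
        rw [h0] at h2
        exact h2
      refine h1.congr (fun s hs => ?_) ?_
      · exact if_pos hs
      · exact if_pos le_rfl
    have hright : HasDerivWithinAt (fun s => if s ≤ z then a s - a z else 0) 0 (Ici z) z := by
      have h1 : HasDerivWithinAt (fun _ : ℝ => (0 : ℝ)) 0 (Ici z) z :=
        hasDerivWithinAt_const z (Ici z) 0
      refine h1.congr (fun s hs => ?_) ?_
      · rcases eq_or_lt_of_le (show z ≤ s from hs) with h | h
        · rw [← h, if_pos le_rfl, sub_self]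
        · rw [if_neg (not_le.mpr h)]
      · rw [if_pos le_rfl, sub_self]
    have hu := hleft.union hright
    rw [Iic_union_Ici, hasDerivWithinAt_univ] at hu
    exact hu
  · rw [if_neg (not_le.mpr hgt)]
    have h1 : HasDerivAt (fun _ : ℝ => (0 : ℝ)) 0 t := hasDerivAt_const t 0
    refine h1.congr_of_eventuallyEq ?_
    filter_upwards [Ioi_mem_nhds hgt] with s hs
    exact if_neg (not_le.mpr hs)

/-- A Neumann mode of `a'' = (κ - p) a` whose derivative vanishes at an interior point vanishes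
identically, when `p - κ > 0` and the form `∫ (φ'² - (p - κ) φ²)` is minimal. -/
theorem mode_deriv_ne_zero {t₁ t₂ κ : ℝ} (ht : t₁ < t₂) {p X a a' a'' : ℝ → ℝ}
    (hp : Continuous p) (hX : Continuous X)
    (hPpos : ∀ t ∈ Ioc t₁ t₂, 0 < p t - κ)
    (hXint : (∫ t in t₁..t₂, X t) ≠ 0)
    (hM : Min1 t₁ t₂ (fun t => p t - κ) X)
    (ha : NeumannMode t₁ t₂ (fun t => κ - p t) a a' a'')
    {z : ℝ} (hz : z ∈ Ioo t₁ t₂) (h0 : a' z = 0) : ∀ t ∈ Icc t₁ t₂, a t = 0 := by
  have _hlt : t₁ < t₂ := ht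
  have hzI : z ∈ Icc t₁ t₂ := ⟨hz.1.le, hz.2.le⟩
  have hQc : Continuous (fun t => κ - p t) := continuous_const.sub hp
  have hPc : Continuous (fun t => p t - κ) := hp.sub continuous_const
  suffices haz : a z = 0 from ha.unique hQc hzI haz h0
  obtain ⟨ψ, hψdef⟩ : ∃ ψ : ℝ → ℝ, ψ = fun s => if s ≤ z then a s - a z else 0 := ⟨_, rfl⟩
  obtain ⟨ψ', hψ'def⟩ : ∃ ψ' : ℝ → ℝ, ψ' = fun s => if s ≤ z then a' s else 0 := ⟨_, rfl⟩
  have hψd : ∀ t, HasDerivAt ψ (ψ' t) t := by
    intro t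
    rw [hψdef, hψ'def]
    exact monotone_trunc_hasDerivAt ha.d1 h0 t
  have hψc : Continuous ψ := continuous_iff_continuousAt.2 fun t => (hψd t).continuousAt
  have hψ'c : Continuous ψ' := by
    rw [hψ'def]
    exact Continuous.if_le ha.cont' continuous_const continuous_id continuous_const
      (fun t ht => by rw [ht]; exact h0)
  have hψle : ∀ t, t ≤ z → ψ t = a t - a z := fun t ht => by
    rw [hψdef]
    exact if_pos ht
  have hψ'le : ∀ t, t ≤ z → ψ' t = a' t := fun t ht => by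
    rw [hψ'def]
    exact if_pos ht
  have hψge : ∀ t, z ≤ t → ψ t = 0 := by
    intro t ht
    rcases eq_or_lt_of_le ht with h | h
    · rw [← h, hψle z le_rfl, sub_self]
    · rw [hψdef]
      exact if_neg (not_le.mpr h)
  have hψ'ge : ∀ t, z ≤ t → ψ' t = 0 := by
    intro t ht
    rcases eq_or_lt_of_le ht with h | h
    · rw [← h, hψ'le z le_rfl, h0]
    · rw [hψ'def]
      exact if_neg (not_le.mpr h)
  obtain ⟨IX, hIX⟩ : ∃ IX : ℝ, IX = ∫ t in t₁..t₂, X t := ⟨_, rfl⟩
  have hIXne : IX ≠ 0 := by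
    rw [hIX]
    exact hXint
  obtain ⟨ρ, hρ⟩ : ∃ ρ : ℝ, ρ = -(∫ t in t₁..t₂, ψ t * X t) / IX := ⟨_, rfl⟩
  have hφX : ∫ t in t₁..t₂, (ψ t + ρ) * X t = 0 := by
    have e1 : ∀ t, (ψ t + ρ) * X t = ψ t * X t + ρ * X t := fun t => by ring
    have hiA : IntervalIntegrable (fun t => ψ t * X t) volume t₁ t₂ :=
      (hψc.mul hX).intervalIntegrable _ _
    have hiB : IntervalIntegrable (fun t => ρ * X t) volume t₁ t₂ :=
      (continuous_const.mul hX).intervalIntegrable _ _
    simp only [e1]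
    rw [intervalIntegral.integral_add hiA hiB,
      intervalIntegral.integral_const_mul, ← hIX, hρ, div_mul_cancel₀ _ hIXne]
    ring
  have hmin : 0 ≤ ∫ t in t₁..t₂, (ψ' t ^ 2 - (p t - κ) * (ψ t + ρ) ^ 2) :=
    hM (fun t => ψ t + ρ) ψ' (fun t => (hψd t).add_const ρ) hψ'c hφX
  obtain ⟨e, he⟩ : ∃ e : ℝ, e = ρ - a z := ⟨_, rfl⟩
  have hFc : Continuous (fun t => ψ' t ^ 2 - (p t - κ) * (ψ t + ρ) ^ 2) :=
    (hψ'c.pow 2).sub (hPc.mul ((hψc.add continuous_const).pow 2))
  have hsplit : ∫ t in t₁..t₂, (ψ' t ^ 2 - (p t - κ) * (ψ t + ρ) ^ 2)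
      = (∫ t in t₁..z, (ψ' t ^ 2 - (p t - κ) * (ψ t + ρ) ^ 2))
        + ∫ t in z..t₂, (ψ' t ^ 2 - (p t - κ) * (ψ t + ρ) ^ 2) :=
    (intervalIntegral.integral_add_adjacent_intervals (hFc.intervalIntegrable _ _)
      (hFc.intervalIntegrable _ _)).symm
  have hE : ∫ t in t₁..z, (a' t ^ 2 + (κ - p t) * a t ^ 2) = a z * a' z := ha.energy hzI
  have hLin : ∫ t in t₁..z, (κ - p t) * a t = a' z := ha.linear hzI
  rw [h0] at hE hLin
  have hi1 : IntervalIntegrable (fun t => a' t ^ 2 + (κ - p t) * a t ^ 2) volume t₁ z :=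
    ((ha.cont'.pow 2).add (hQc.mul (ha.cont.pow 2))).intervalIntegrable _ _
  have hi2 : IntervalIntegrable (fun t => 2 * e * ((κ - p t) * a t)) volume t₁ z :=
    (continuous_const.mul (hQc.mul ha.cont)).intervalIntegrable _ _
  have hi3 : IntervalIntegrable (fun t => e ^ 2 * (p t - κ)) volume t₁ z :=
    (continuous_const.mul hPc).intervalIntegrable _ _
  have hleft : ∫ t in t₁..z, (ψ' t ^ 2 - (p t - κ) * (ψ t + ρ) ^ 2)
      = -(e ^ 2 * ∫ t in t₁..z, (p t - κ)) := by
    have hcongr : ∫ t in t₁..z, (ψ' t ^ 2 - (p t - κ) * (ψ t + ρ) ^ 2)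
        = ∫ t in t₁..z, ((a' t ^ 2 + (κ - p t) * a t ^ 2) + 2 * e * ((κ - p t) * a t)
            - e ^ 2 * (p t - κ)) := by
      apply intervalIntegral.integral_congr
      intro t ht
      rw [uIcc_of_le hz.1.le] at ht
      simp only
      rw [hψle t ht.2, hψ'le t ht.2, he]
      ring
    have hsum : ∫ t in t₁..z, ((a' t ^ 2 + (κ - p t) * a t ^ 2) + 2 * e * ((κ - p t) * a t)
            - e ^ 2 * (p t - κ))
        = (∫ t in t₁..z, (a' t ^ 2 + (κ - p t) * a t ^ 2))
          + 2 * e * (∫ t in t₁..z, (κ - p t) * a t) - e ^ 2 * ∫ t in t₁..z, (p t - κ) := by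
      rw [intervalIntegral.integral_sub (hi1.add hi2) hi3,
        intervalIntegral.integral_add hi1 hi2, intervalIntegral.integral_const_mul,
        intervalIntegral.integral_const_mul]
    rw [hcongr, hsum, hE, hLin]
    ring
  have hright : ∫ t in z..t₂, (ψ' t ^ 2 - (p t - κ) * (ψ t + ρ) ^ 2)
      = -(ρ ^ 2 * ∫ t in z..t₂, (p t - κ)) := by
    have hcongr : ∫ t in z..t₂, (ψ' t ^ 2 - (p t - κ) * (ψ t + ρ) ^ 2)
        = ∫ t in z..t₂, (-(ρ ^ 2)) * (p t - κ) := by
      apply intervalIntegral.integral_congr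
      intro t ht
      rw [uIcc_of_le hz.2.le] at ht
      simp only
      rw [hψge t ht.1, hψ'ge t ht.1]
      ring
    rw [hcongr, intervalIntegral.integral_const_mul]
    ring
  have hP1 : 0 < ∫ t in t₁..z, (p t - κ) :=
    intervalIntegral.intervalIntegral_pos_of_pos_on (hPc.intervalIntegrable _ _)
      (fun t ht => hPpos t ⟨ht.1, le_trans ht.2.le hz.2.le⟩) hz.1
  have hP2 : 0 < ∫ t in z..t₂, (p t - κ) :=
    intervalIntegral.intervalIntegral_pos_of_pos_on (hPc.intervalIntegrable _ _)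
      (fun t ht => hPpos t ⟨lt_trans hz.1 ht.1, ht.2.le⟩) hz.2
  rw [hsplit, hleft, hright] at hmin
  have hn1 : 0 ≤ e ^ 2 * ∫ t in t₁..z, (p t - κ) := mul_nonneg (sq_nonneg e) hP1.le
  have hn2 : 0 ≤ ρ ^ 2 * ∫ t in z..t₂, (p t - κ) := mul_nonneg (sq_nonneg ρ) hP2.le
  have he2 : e ^ 2 * (∫ t in t₁..z, (p t - κ)) = 0 := le_antisymm (by linarith) hn1
  have hr2 : ρ ^ 2 * (∫ t in z..t₂, (p t - κ)) = 0 := le_antisymm (by linarith) hn2
  have he0 : e = 0 := by
    rcases mul_eq_zero.mp he2 with h | h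
    · exact (pow_eq_zero_iff two_ne_zero).mp h
    · exact absurd h (ne_of_gt hP1)
  have hr0 : ρ = 0 := by
    rcases mul_eq_zero.mp hr2 with h | h
    · exact (pow_eq_zero_iff two_ne_zero).mp h
    · exact absurd h (ne_of_gt hP2)
  rw [he0, hr0] at he
  linarith

end Vale.Agent.Lib.P071.LR
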