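import Mathlib
import Vale.Agent.Lib.P071.LR.Defs

namespace Vale.Agent.Lib.P071.LR

open Set MeasureTheory Real Filter Topology
open Vale.Agent.Lib.P071

/-- No interior critical point of `a x * Y y + X x * b y` when `a` is decreasing and `b` is
increasing. -/
theorem no_crit_OS {x₁ x₂ y₁ y₂ σ κ : ℝ} (hx : x₁ < x₂) (hy : y₁ < y₂) {p q : ℝ → ℝ}
    (hp : Continuous p) (hq : Continuous q) (hneg : σ + κ < 0)
    {a a' a'' X X' X'' b b' b'' Y Y' Y'' : ℝ → ℝ}
    (ha : NeumannMode x₁ x₂ (fun x => κ - p x) a a' a'')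
    (hX : NeumannMode x₁ x₂ (fun x => -(σ + p x)) X X' X'')
    (hb : NeumannMode y₁ y₂ (fun y => σ - q y) b b' b'')
    (hY : NeumannMode y₁ y₂ (fun y => -(κ + q y)) Y Y' Y'')
    (hXpos : ∀ x ∈ Icc x₁ x₂, 0 < X x) (hYpos : ∀ y ∈ Icc y₁ y₂, 0 < Y y)
    (hX' : ∀ x ∈ Icc x₁ x₂, 0 ≤ X' x) (hY' : ∀ y ∈ Icc y₁ y₂, 0 ≤ Y' y)
    (ha' : ∀ x ∈ Ioo x₁ x₂, a' x < 0) (hb' : ∀ y ∈ Ioo y₁ y₂, 0 < b' y)
    {x y : ℝ} (hxm : x ∈ Ioo x₁ x₂) (hym : y ∈ Ioo y₁ y₂)
    (e1 : a' x * Y y + X' x * b y = 0) (e2 : a x * Y' y + X x * b' y = 0) : False := by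
  have _hyps := And.intro (And.intro hx hy) (And.intro hp hq)
  have hxI : x ∈ Icc x₁ x₂ := Ioo_subset_Icc_self hxm
  have hyI : y ∈ Icc y₁ y₂ := Ioo_subset_Icc_self hym
  have hax' : a' x < 0 := ha' x hxm
  have hby' : 0 < b' y := hb' y hym
  have hXx : 0 < X x := hXpos x hxI
  have hYy : 0 < Y y := hYpos y hyI
  have hX'x : 0 ≤ X' x := hX' x hxI
  have hY'y : 0 ≤ Y' y := hY' y hyI
  -- signs at the critical point
  have h1 : 0 < X' x * b y := by
    have h := mul_neg_of_neg_of_pos hax' hYy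
    linarith
  have hX'pos : 0 < X' x := by
    rcases hX'x.lt_or_eq with h | h
    · exact h
    · rw [← h, zero_mul] at h1
      exact absurd h1 (lt_irrefl _)
  have hbpos : 0 < b y := by
    by_contra hcon
    push Not at hcon
    have h := mul_nonpos_of_nonneg_of_nonpos hX'pos.le hcon
    linarith
  have h2 : a x * Y' y < 0 := by
    have h := mul_pos hXx hby'
    linarith
  have hY'pos : 0 < Y' y := by
    rcases hY'y.lt_or_eq with h | h
    · exact h
    · rw [← h, mul_zero] at h2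
      exact absurd h2 (lt_irrefl _)
  have haneg : a x < 0 := by
    by_contra hcon
    push Not at hcon
    have h := mul_nonneg hcon hY'pos.le
    linarith
  -- monotonicity of `a` and `b`
  have hanti : AntitoneOn a (Icc x₁ x₂) := by
    apply antitoneOn_of_deriv_nonpos (convex_Icc x₁ x₂) ha.cont.continuousOn
    · intro t _
      exact (ha.d1 t).differentiableAt.differentiableWithinAt
    · intro t ht
      rw [interior_Icc] at ht
      rw [(ha.d1 t).deriv]
      exact (ha' t ht).le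
  have hmono : MonotoneOn b (Icc y₁ y₂) := by
    apply monotoneOn_of_deriv_nonneg (convex_Icc y₁ y₂) hb.cont.continuousOn
    · intro t _
      exact (hb.d1 t).differentiableAt.differentiableWithinAt
    · intro t ht
      rw [interior_Icc] at ht
      rw [(hb.d1 t).deriv]
      exact (hb' t ht).le
  -- the Wronskian in the first variable
  have hWd : ∀ t, HasDerivAt (fun t => a' t * X t - X' t * a t)
      (a'' t * X t + a' t * X' t - (X'' t * a t + X' t * a' t)) t :=
    fun t => ((ha.d2 t).mul (hX.d1 t)).sub ((hX.d2 t).mul (ha.d1 t))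
  have hWmono : StrictMonoOn (fun t => a' t * X t - X' t * a t) (Icc x x₂) := by
    apply strictMonoOn_of_deriv_pos (convex_Icc x x₂)
    · exact (continuous_iff_continuousAt.2 fun t => (hWd t).continuousAt).continuousOn
    · intro t ht
      rw [interior_Icc] at ht
      rw [(hWd t).deriv]
      have htI : t ∈ Icc x₁ x₂ := ⟨hxI.1.trans ht.1.le, ht.2.le⟩
      rw [ha.ode t htI, hX.ode t htI]
      have hat : a t < 0 := lt_of_le_of_lt (hanti hxI htI ht.1.le) haneg
      have hXt : 0 < X t := hXpos t htI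
      have e : (κ - p t) * a t * X t + a' t * X' t - (-(σ + p t) * X t * a t + X' t * a' t)
          = (σ + κ) * (a t * X t) := by ring
      rw [e]
      exact mul_pos_of_neg_of_neg hneg (mul_neg_of_neg_of_pos hat hXt)
  have hW : a' x * X x - X' x * a x < a' x₂ * X x₂ - X' x₂ * a x₂ :=
    hWmono (left_mem_Icc.2 hxm.2.le) (right_mem_Icc.2 hxm.2.le) hxm.2
  rw [ha.n2, hX.n2, zero_mul, zero_mul, sub_zero] at hW
  -- the Wronskian in the second variable
  have hVd : ∀ s, HasDerivAt (fun s => b' s * Y s - Y' s * b s)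
      (b'' s * Y s + b' s * Y' s - (Y'' s * b s + Y' s * b' s)) s :=
    fun s => ((hb.d2 s).mul (hY.d1 s)).sub ((hY.d2 s).mul (hb.d1 s))
  have hVanti : StrictAntiOn (fun s => b' s * Y s - Y' s * b s) (Icc y y₂) := by
    apply strictAntiOn_of_deriv_neg (convex_Icc y y₂)
    · exact (continuous_iff_continuousAt.2 fun s => (hVd s).continuousAt).continuousOn
    · intro s hs
      rw [interior_Icc] at hs
      rw [(hVd s).deriv]
      have hsI : s ∈ Icc y₁ y₂ := ⟨hyI.1.trans hs.1.le, hs.2.le⟩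
      rw [hb.ode s hsI, hY.ode s hsI]
      have hbs : 0 < b s := lt_of_lt_of_le hbpos (hmono hyI hsI hs.1.le)
      have hYs : 0 < Y s := hYpos s hsI
      have e : (σ - q s) * b s * Y s + b' s * Y' s - (-(κ + q s) * Y s * b s + Y' s * b' s)
          = (σ + κ) * (b s * Y s) := by ring
      rw [e]
      exact mul_neg_of_neg_of_pos hneg (mul_pos hbs hYs)
  have hV : b' y₂ * Y y₂ - Y' y₂ * b y₂ < b' y * Y y - Y' y * b y :=
    hVanti (left_mem_Icc.2 hym.2.le) (right_mem_Icc.2 hym.2.le) hym.2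
  rw [hb.n2, hY.n2, zero_mul, zero_mul, sub_zero] at hV
  -- conclusion
  have hP : X' x * (-(a x)) < -(a' x) * X x := by linarith
  have hR : Y' y * b y < b' y * Y y := by linarith
  have hS0 : 0 < X' x * (-(a x)) := mul_pos hX'pos (neg_pos.2 haneg)
  have hT0 : 0 < Y' y * b y := mul_pos hY'pos hbpos
  have hlt : X' x * (-(a x)) * (Y' y * b y) < -(a' x) * X x * (b' y * Y y) :=
    mul_lt_mul'' hP hR hS0.le hT0.le
  have heq : -(a' x) * X x * (b' y * Y y) = X' x * (-(a x)) * (Y' y * b y) := by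
    have e1' : a' x * Y y = -(X' x * b y) := by linarith
    have e2' : X x * b' y = -(a x * Y' y) := by linarith
    calc -(a' x) * X x * (b' y * Y y) = -((a' x * Y y) * (X x * b' y)) := by ring
      _ = -((-(X' x * b y)) * (-(a x * Y' y))) := by rw [e1', e2']
      _ = X' x * (-(a x)) * (Y' y * b y) := by ring
  linarith

end Vale.Agent.Lib.P071.LR
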