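import Mathlib
import Vale.Agent.Lib.P071.LR.Defs

namespace Vale.Agent.Lib.P071.LR

open Set MeasureTheory Real Filter Topology
open Vale.Agent.Lib.P071

/-- A mode with negative derivative inside the interval is, up to an interior point `x`, at least
`a x`, and its derivative is nonpositive there. -/
lemma noCritSS_anti {t₁ t₂ : ℝ} {Q a a' a'' : ℝ → ℝ} (ha : NeumannMode t₁ t₂ Q a a' a'')
    (ha' : ∀ t ∈ Ioo t₁ t₂, a' t < 0) {x : ℝ} (hxm : x ∈ Ioo t₁ t₂) :
    ∀ t ∈ Icc t₁ x, a x ≤ a t ∧ a' t ≤ 0 := by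
  have hanti : AntitoneOn a (Icc t₁ x) := by
    apply antitoneOn_of_deriv_nonpos (convex_Icc t₁ x) ha.cont.continuousOn
    · intro t _
      exact (ha.d1 t).differentiableAt.differentiableWithinAt
    · intro t ht
      rw [interior_Icc] at ht
      rw [(ha.d1 t).deriv]
      exact (ha' t ⟨ht.1, lt_trans ht.2 hxm.2⟩).le
  intro t ht
  refine ⟨hanti ht (right_mem_Icc.mpr hxm.1.le) ht.2, ?_⟩
  rcases eq_or_lt_of_le ht.1 with h | h
  · rw [← h, ha.n1]
  · exact (ha' t ⟨h, lt_of_le_of_lt ht.2 hxm.2⟩).le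

/-- The Wronskian-type function `-(a' t) * X t - c * (X' t * a t)` is positive at `x`. -/
lemma noCritSS_PW {x₁ x₂ κ σ c qy : ℝ} {p : ℝ → ℝ} {a a' a'' X X' X'' : ℝ → ℝ}
    (ha : NeumannMode x₁ x₂ (fun x => κ - p x) a a' a'')
    (hX : NeumannMode x₁ x₂ (fun x => -(σ + p x)) X X' X'')
    (hc : 0 ≤ c) (hcs : c * (qy - σ) = -κ - qy)
    {x : ℝ} (hxm : x ∈ Ioo x₁ x₂)
    (hpos : ∀ t ∈ Ioc x₁ x₂, 0 < p t + qy)
    (hapos : ∀ t ∈ Icc x₁ x, 0 < a t) (hXpos : ∀ t ∈ Icc x₁ x₂, 0 < X t)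
    (ha' : ∀ t ∈ Icc x₁ x, a' t ≤ 0) (hX' : ∀ t ∈ Icc x₁ x₂, 0 ≤ X' t) :
    c * (X' x * a x) < -(a' x) * X x := by
  have hWd : ∀ t, HasDerivAt (fun t => -(a' t) * X t - c * (X' t * a t))
      (-(a'' t) * X t + -(a' t) * X' t - c * (X'' t * a t + X' t * a' t)) t := by
    intro t
    exact (((ha.d2 t).neg).mul (hX.d1 t)).sub (((hX.d2 t).mul (ha.d1 t)).const_mul c)
  have hWc : Continuous (fun t => -(a' t) * X t - c * (X' t * a t)) :=
    continuous_iff_continuousAt.2 fun t => (hWd t).continuousAt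
  have hmono : StrictMonoOn (fun t => -(a' t) * X t - c * (X' t * a t)) (Icc x₁ x) := by
    apply strictMonoOn_of_deriv_pos (convex_Icc x₁ x) hWc.continuousOn
    intro t ht
    rw [interior_Icc] at ht
    rw [(hWd t).deriv]
    have htI : t ∈ Icc x₁ x₂ := ⟨ht.1.le, (lt_trans ht.2 hxm.2).le⟩
    have htI' : t ∈ Icc x₁ x := ⟨ht.1.le, ht.2.le⟩
    have e1 : a'' t = (κ - p t) * a t := ha.ode t htI
    have e2 : X'' t = -(σ + p t) * X t := hX.ode t htI
    have h1 := hapos t htI'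
    have h2 := hXpos t htI
    have h3 := hpos t ⟨ht.1, (lt_trans ht.2 hxm.2).le⟩
    have h4 := ha' t htI'
    have h5 := hX' t htI
    have key : -(a'' t) * X t + -(a' t) * X' t - c * (X'' t * a t + X' t * a' t)
        = (1 + c) * (a t * X t * (p t + qy) + -(a' t) * X' t) := by
      rw [e1, e2]
      linear_combination (-(a t * X t)) * hcs
    rw [key]
    have h6 : 0 < a t * X t * (p t + qy) := mul_pos (mul_pos h1 h2) h3
    have h7 : 0 ≤ -(a' t) * X' t := mul_nonneg (neg_nonneg.mpr h4) h5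
    exact mul_pos (by linarith) (by linarith)
  have hlt := hmono (left_mem_Icc.mpr hxm.1.le) (right_mem_Icc.mpr hxm.1.le) hxm.1
  have hlt' : -(a' x₁) * X x₁ - c * (X' x₁ * a x₁) < -(a' x) * X x - c * (X' x * a x) := hlt
  rw [ha.n1, hX.n1] at hlt'
  linarith

/-- The Wronskian-type function `-c * (b' s * Y s) - Y' s * b s` is nonnegative at `y`. -/
lemma noCritSS_PV {y₁ y₂ κ σ c : ℝ} {q : ℝ → ℝ} {b b' b'' Y Y' Y'' : ℝ → ℝ}
    (hb : NeumannMode y₁ y₂ (fun y => σ - q y) b b' b'')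
    (hY : NeumannMode y₁ y₂ (fun y => -(κ + q y)) Y Y' Y'')
    (hc : 0 ≤ c) (hcs : c * (q y₁ - σ) = -κ - q y₁)
    (hqm : MonotoneOn q (Icc y₁ y₂))
    {y : ℝ} (hym : y ∈ Ioo y₁ y₂)
    (hbpos : ∀ s ∈ Icc y₁ y, 0 < b s) (hYpos : ∀ s ∈ Icc y₁ y₂, 0 < Y s)
    (hb' : ∀ s ∈ Icc y₁ y, b' s ≤ 0) (hY' : ∀ s ∈ Icc y₁ y₂, 0 ≤ Y' s) :
    Y' y * b y ≤ -c * (b' y * Y y) := by
  have hVd : ∀ s, HasDerivAt (fun s => -c * (b' s * Y s) - Y' s * b s)
      (-c * (b'' s * Y s + b' s * Y' s) - (Y'' s * b s + Y' s * b' s)) s := by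
    intro s
    exact (((hb.d2 s).mul (hY.d1 s)).const_mul (-c)).sub ((hY.d2 s).mul (hb.d1 s))
  have hVc : Continuous (fun s => -c * (b' s * Y s) - Y' s * b s) :=
    continuous_iff_continuousAt.2 fun s => (hVd s).continuousAt
  have hmono : MonotoneOn (fun s => -c * (b' s * Y s) - Y' s * b s) (Icc y₁ y) := by
    apply monotoneOn_of_deriv_nonneg (convex_Icc y₁ y) hVc.continuousOn
    · intro s _
      exact (hVd s).differentiableAt.differentiableWithinAt
    · intro s hs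
      rw [interior_Icc] at hs
      rw [(hVd s).deriv]
      have hsI : s ∈ Icc y₁ y₂ := ⟨hs.1.le, (lt_trans hs.2 hym.2).le⟩
      have hsI' : s ∈ Icc y₁ y := ⟨hs.1.le, hs.2.le⟩
      have e1 : b'' s = (σ - q s) * b s := hb.ode s hsI
      have e2 : Y'' s = -(κ + q s) * Y s := hY.ode s hsI
      have h1 := hbpos s hsI'
      have h2 := hYpos s hsI
      have h3 : q y₁ ≤ q s := hqm (left_mem_Icc.mpr (le_trans hs.1.le hsI.2)) hsI hs.1.le
      have h4 := hb' s hsI'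
      have h5 := hY' s hsI
      have key : -c * (b'' s * Y s + b' s * Y' s) - (Y'' s * b s + Y' s * b' s)
          = (1 + c) * (b s * Y s * (q s - q y₁) + -(b' s) * Y' s) := by
        rw [e1, e2]
        linear_combination (b s * Y s) * hcs
      rw [key]
      have h6 : 0 ≤ b s * Y s * (q s - q y₁) :=
        mul_nonneg (mul_pos h1 h2).le (by linarith)
      have h7 : 0 ≤ -(b' s) * Y' s := mul_nonneg (neg_nonneg.mpr h4) h5
      exact mul_nonneg (by linarith) (by linarith)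
  have hle := hmono (left_mem_Icc.mpr hym.1.le) (right_mem_Icc.mpr hym.1.le) hym.1.le
  have hle' : -c * (b' y₁ * Y y₁) - Y' y₁ * b y₁ ≤ -c * (b' y * Y y) - Y' y * b y := hle
  rw [hb.n1, hY.n1] at hle'
  linarith

/-- No interior critical point of `a x * Y y + X x * b y` when both modes are decreasing. -/
theorem no_crit_SS {x₁ x₂ y₁ y₂ σ κ : ℝ} (hx : x₁ < x₂) (hy : y₁ < y₂) {p q : ℝ → ℝ}
    (hp : Continuous p) (hq : Continuous q) (hqm : MonotoneOn q (Icc y₁ y₂))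
    (hpos : ∀ x ∈ Ioc x₁ x₂, 0 < p x + q y₁)
    (hA : κ + q y₁ ≤ 0) (hB : 0 < q y₁ - σ)
    {a a' a'' X X' X'' b b' b'' Y Y' Y'' : ℝ → ℝ}
    (ha : NeumannMode x₁ x₂ (fun x => κ - p x) a a' a'')
    (hX : NeumannMode x₁ x₂ (fun x => -(σ + p x)) X X' X'')
    (hb : NeumannMode y₁ y₂ (fun y => σ - q y) b b' b'')
    (hY : NeumannMode y₁ y₂ (fun y => -(κ + q y)) Y Y' Y'')
    (hXpos : ∀ x ∈ Icc x₁ x₂, 0 < X x) (hYpos : ∀ y ∈ Icc y₁ y₂, 0 < Y y)
    (hX' : ∀ x ∈ Icc x₁ x₂, 0 ≤ X' x) (hY' : ∀ y ∈ Icc y₁ y₂, 0 ≤ Y' y)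
    (ha' : ∀ x ∈ Ioo x₁ x₂, a' x < 0) (hb' : ∀ y ∈ Ioo y₁ y₂, b' y < 0)
    {x y : ℝ} (hxm : x ∈ Ioo x₁ x₂) (hym : y ∈ Ioo y₁ y₂)
    (e1 : a' x * Y y + X' x * b y = 0) (e2 : a x * Y' y + X x * b' y = 0) : False := by
  -- the hypotheses `hx`, `hy`, `hp`, `hq` are not needed below; they are recorded here only
  have _ := And.intro (And.intro hx hy) (And.intro hp hq)
  have hxI : x ∈ Icc x₁ x₂ := Ioo_subset_Icc_self hxm
  have hyI : y ∈ Icc y₁ y₂ := Ioo_subset_Icc_self hym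
  have hXx := hXpos x hxI
  have hYy := hYpos y hyI
  have ha'x := ha' x hxm
  have hb'y := hb' y hym
  have hX'x := hX' x hxI
  have hY'y := hY' y hyI
  -- signs
  have h1 : 0 < X' x * b y := by
    have h := mul_pos (neg_pos.mpr ha'x) hYy
    linarith
  have hX'pos : 0 < X' x := by
    rcases eq_or_lt_of_le hX'x with h | h
    · rw [← h, zero_mul] at h1
      exact absurd h1 (lt_irrefl 0)
    · exact h
  have hbpos : 0 < b y := (pos_iff_pos_of_mul_pos h1).mp hX'pos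
  have h2 : 0 < a x * Y' y := by
    have h := mul_pos hXx (neg_pos.mpr hb'y)
    linarith
  have hY'pos : 0 < Y' y := by
    rcases eq_or_lt_of_le hY'y with h | h
    · rw [← h, mul_zero] at h2
      exact absurd h2 (lt_irrefl 0)
    · exact h
  have hapos : 0 < a x := (pos_iff_pos_of_mul_pos h2).mpr hY'pos
  -- monotonicity of the two decreasing modes
  have hA1 := noCritSS_anti ha ha' hxm
  have hB1 := noCritSS_anti hb hb' hym
  -- the constant
  obtain ⟨c, hcdef⟩ : ∃ c, c = (-κ - q y₁) / (q y₁ - σ) := ⟨_, rfl⟩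
  have hc : 0 ≤ c := by
    rw [hcdef]
    exact div_nonneg (by linarith) hB.le
  have hcs : c * (q y₁ - σ) = -κ - q y₁ := by
    rw [hcdef]
    exact div_mul_cancel₀ _ hB.ne'
  have PW := noCritSS_PW ha hX hc hcs hxm hpos
    (fun t ht => lt_of_lt_of_le hapos (hA1 t ht).1) hXpos (fun t ht => (hA1 t ht).2) hX'
  have PV := noCritSS_PV hb hY hc hcs hqm hym
    (fun s hs => lt_of_lt_of_le hbpos (hB1 s hs).1) hYpos (fun s hs => (hB1 s hs).2) hY'
  -- conclusion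
  have hS : 0 < X' x * a x := mul_pos hX'pos hapos
  have hR : 0 < -(b' y) * Y y := mul_pos (neg_pos.mpr hb'y) hYy
  have hcR : Y' y * b y ≤ c * (-(b' y) * Y y) := by linarith
  have hPR : (-(a' x) * X x) * (-(b' y) * Y y) = (X' x * a x) * (Y' y * b y) := by
    have e1' : a' x * Y y = -(X' x * b y) := by linarith
    have e2' : X x * b' y = -(a x * Y' y) := by linarith
    calc (-(a' x) * X x) * (-(b' y) * Y y) = (a' x * Y y) * (X x * b' y) := by ring
      _ = (-(X' x * b y)) * (-(a x * Y' y)) := by rw [e1', e2']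
      _ = (X' x * a x) * (Y' y * b y) := by ring
  have h3 : c * (X' x * a x) * (-(b' y) * Y y) < (-(a' x) * X x) * (-(b' y) * Y y) :=
    mul_lt_mul_of_pos_right PW hR
  have h4 : (X' x * a x) * (Y' y * b y) ≤ (X' x * a x) * (c * (-(b' y) * Y y)) :=
    mul_le_mul_of_nonneg_left hcR hS.le
  have h5 : c * (X' x * a x) * (-(b' y) * Y y) = (X' x * a x) * (c * (-(b' y) * Y y)) := by
    ring
  linarith

end Vale.Agent.Lib.P071.LR
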