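import Mathlib
import Vale.Agent.Lib.P071.LR.Defs
import Vale.Agent.Lib.P071.Modes

namespace Vale.Agent.Lib.P071.LR

open Set MeasureTheory Real Filter Topology
open Vale.Agent.Lib.P071

/-- A twice continuously differentiable solution of the equation in slice form gives a
`RectSol`. -/
theorem rectSol_of_contDiff {x₁ x₂ y₁ y₂ : ℝ} {p q : ℝ → ℝ} {u : ℝ × ℝ → ℝ} (hu : ContDiff ℝ 2 u)
    (hpde : ∀ x ∈ Icc x₁ x₂, ∀ y ∈ Icc y₁ y₂,
        deriv (fun s => deriv (fun r => u (r, y)) s) x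
          + deriv (fun s => deriv (fun r => u (x, r)) s) y = -(p x + q y) * u (x, y))
    (hN₁ : ∀ y ∈ Icc y₁ y₂,
        deriv (fun r => u (r, y)) x₁ = 0 ∧ deriv (fun r => u (r, y)) x₂ = 0)
    (hN₂ : ∀ x ∈ Icc x₁ x₂,
        deriv (fun r => u (x, r)) y₁ = 0 ∧ deriv (fun r => u (x, r)) y₂ = 0) :
    ∃ ux uxx uy uyy : ℝ → ℝ → ℝ,
      RectSol x₁ x₂ y₁ y₂ p q (fun x y => u (x, y)) ux uxx uy uyy := by
  have hud : Differentiable ℝ u := hu.differentiable (by norm_num)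
  have hu1 : ContDiff ℝ 1 (fderiv ℝ u) := hu.fderiv_right (by norm_num)
  have hg1 : ContDiff ℝ 1 (fun p => fderiv ℝ u p ((1:ℝ), (0:ℝ))) :=
    hu1.clm_apply contDiff_const
  have hg2 : ContDiff ℝ 1 (fun p => fderiv ℝ u p ((0:ℝ), (1:ℝ))) :=
    hu1.clm_apply contDiff_const
  have hg1d : Differentiable ℝ (fun p => fderiv ℝ u p ((1:ℝ), (0:ℝ))) :=
    hg1.differentiable (by norm_num)
  have hg2d : Differentiable ℝ (fun p => fderiv ℝ u p ((0:ℝ), (1:ℝ))) :=
    hg2.differentiable (by norm_num)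
  have hdx : ∀ x y, HasDerivAt (fun t => u (t, y)) (fderiv ℝ u (x, y) (1, 0)) x :=
    Modes_slice_fst hud
  have hdy : ∀ x y, HasDerivAt (fun t => u (x, t)) (fderiv ℝ u (x, y) (0, 1)) y :=
    Modes_slice_snd hud
  have hdxx : ∀ x y, HasDerivAt (fun t => fderiv ℝ u (t, y) (1, 0))
      (fderiv ℝ (fun p => fderiv ℝ u p (1, 0)) (x, y) (1, 0)) x :=
    Modes_slice_fst hg1d
  have hdyy : ∀ x y, HasDerivAt (fun t => fderiv ℝ u (x, t) (0, 1))
      (fderiv ℝ (fun p => fderiv ℝ u p (0, 1)) (x, y) (0, 1)) y :=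
    Modes_slice_snd hg2d
  have hc : Continuous (fun p : ℝ × ℝ => u (p.1, p.2)) := hu.continuous
  have hcx : Continuous (fun p : ℝ × ℝ => fderiv ℝ u (p.1, p.2) (1, 0)) := hg1.continuous
  have hcy : Continuous (fun p : ℝ × ℝ => fderiv ℝ u (p.1, p.2) (0, 1)) := hg2.continuous
  have hcxx : Continuous (fun p : ℝ × ℝ =>
      fderiv ℝ (fun p => fderiv ℝ u p (1, 0)) (p.1, p.2) (1, 0)) :=
    (hg1.continuous_fderiv (by norm_num)).clm_apply continuous_const
  have hcyy : Continuous (fun p : ℝ × ℝ =>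
      fderiv ℝ (fun p => fderiv ℝ u p (0, 1)) (p.1, p.2) (0, 1)) :=
    (hg2.continuous_fderiv (by norm_num)).clm_apply continuous_const
  refine ⟨fun x y => fderiv ℝ u (x, y) (1, 0),
    fun x y => fderiv ℝ (fun p => fderiv ℝ u p (1, 0)) (x, y) (1, 0),
    fun x y => fderiv ℝ u (x, y) (0, 1),
    fun x y => fderiv ℝ (fun p => fderiv ℝ u p (0, 1)) (x, y) (0, 1), ?_⟩
  refine ⟨hc, hcx, hcxx, hcy, hcyy, hdx, hdxx, hdy, hdyy, ?_, ?_, ?_, ?_, ?_⟩
  · intro x hx y hy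
    have h1 : (fun s => deriv (fun r => u (r, y)) s) = fun s => fderiv ℝ u (s, y) (1, 0) :=
      funext fun s => (hdx s y).deriv
    have h2 : (fun s => deriv (fun r => u (x, r)) s) = fun s => fderiv ℝ u (x, s) (0, 1) :=
      funext fun s => (hdy x s).deriv
    have h3 := hpde x hx y hy
    rw [h1, h2, (hdxx x y).deriv, (hdyy x y).deriv] at h3
    exact h3
  · intro y hy
    show fderiv ℝ u (x₁, y) (1, 0) = 0
    rw [← (hdx x₁ y).deriv]
    exact (hN₁ y hy).1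
  · intro y hy
    show fderiv ℝ u (x₂, y) (1, 0) = 0
    rw [← (hdx x₂ y).deriv]
    exact (hN₁ y hy).2
  · intro x hx
    show fderiv ℝ u (x, y₁) (0, 1) = 0
    rw [← (hdy x y₁).deriv]
    exact (hN₂ x hx).1
  · intro x hx
    show fderiv ℝ u (x, y₂) (0, 1) = 0
    rw [← (hdy x y₂).deriv]
    exact (hN₂ x hx).2

/-- A product of two Neumann modes with matching separation constants solves the equation. -/
theorem rectSol_prod {x₁ x₂ y₁ y₂ : ℝ} {p q Q₁ Q₂ a a' a'' c c' c'' : ℝ → ℝ}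
    (ha : NeumannMode x₁ x₂ Q₁ a a' a'') (hc : NeumannMode y₁ y₂ Q₂ c c' c'')
    (hQ : ∀ x ∈ Icc x₁ x₂, ∀ y ∈ Icc y₁ y₂, Q₁ x + Q₂ y = -(p x + q y)) :
    RectSol x₁ x₂ y₁ y₂ p q (fun x y => a x * c y) (fun x y => a' x * c y)
      (fun x y => a'' x * c y) (fun x y => a x * c' y) (fun x y => a x * c'' y) := by
  refine ⟨?_, ?_, ?_, ?_, ?_, ?_, ?_, ?_, ?_, ?_, ?_, ?_, ?_, ?_⟩
  · exact (ha.cont.comp continuous_fst).mul (hc.cont.comp continuous_snd)
  · exact (ha.cont'.comp continuous_fst).mul (hc.cont.comp continuous_snd)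
  · exact (ha.c2.comp continuous_fst).mul (hc.cont.comp continuous_snd)
  · exact (ha.cont.comp continuous_fst).mul (hc.cont'.comp continuous_snd)
  · exact (ha.cont.comp continuous_fst).mul (hc.c2.comp continuous_snd)
  · intro x y
    exact (ha.d1 x).mul_const (c y)
  · intro x y
    exact (ha.d2 x).mul_const (c y)
  · intro x y
    exact (hc.d1 y).const_mul (a x)
  · intro x y
    exact (hc.d2 y).const_mul (a x)
  · intro x hx y hy
    show a'' x * c y + a x * c'' y = -(p x + q y) * (a x * c y)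
    rw [ha.ode x hx, hc.ode y hy, ← hQ x hx y hy]
    ring
  · intro y _
    show a' x₁ * c y = 0
    rw [ha.n1, zero_mul]
  · intro y _
    show a' x₂ * c y = 0
    rw [ha.n2, zero_mul]
  · intro x _
    show a x * c' y₁ = 0
    rw [hc.n1, mul_zero]
  · intro x _
    show a x * c' y₂ = 0
    rw [hc.n2, mul_zero]

/-- Differences of solutions are solutions. -/
theorem RectSol.sub {x₁ x₂ y₁ y₂ : ℝ} {p q : ℝ → ℝ} {u ux uxx uy uyy v vx vxx vy vyy : ℝ → ℝ → ℝ}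
    (hu : RectSol x₁ x₂ y₁ y₂ p q u ux uxx uy uyy)
    (hv : RectSol x₁ x₂ y₁ y₂ p q v vx vxx vy vyy) :
    RectSol x₁ x₂ y₁ y₂ p q (fun x y => u x y - v x y) (fun x y => ux x y - vx x y)
      (fun x y => uxx x y - vxx x y) (fun x y => uy x y - vy x y)
      (fun x y => uyy x y - vyy x y) := by
  refine ⟨hu.cu.sub hv.cu, hu.cux.sub hv.cux, hu.cuxx.sub hv.cuxx, hu.cuy.sub hv.cuy,
    hu.cuyy.sub hv.cuyy, fun x y => (hu.dx x y).sub (hv.dx x y),
    fun x y => (hu.dxx x y).sub (hv.dxx x y), fun x y => (hu.dy x y).sub (hv.dy x y),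
    fun x y => (hu.dyy x y).sub (hv.dyy x y), ?_, ?_, ?_, ?_, ?_⟩
  · intro x hx y hy
    have h1 := hu.pde x hx y hy
    have h2 := hv.pde x hx y hy
    show uxx x y - vxx x y + (uyy x y - vyy x y) = -(p x + q y) * (u x y - v x y)
    linear_combination h1 - h2
  · intro y hy
    show ux x₁ y - vx x₁ y = 0
    rw [hu.nx₁ y hy, hv.nx₁ y hy, sub_zero]
  · intro y hy
    show ux x₂ y - vx x₂ y = 0
    rw [hu.nx₂ y hy, hv.nx₂ y hy, sub_zero]
  · intro x hx
    show uy x y₁ - vy x y₁ = 0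
    rw [hu.ny₁ x hx, hv.ny₁ x hx, sub_zero]
  · intro x hx
    show uy x y₂ - vy x y₂ = 0
    rw [hu.ny₂ x hx, hv.ny₂ x hx, sub_zero]

/-- Exchanging the two variables. -/
theorem RectSol.swap {x₁ x₂ y₁ y₂ : ℝ} {p q : ℝ → ℝ} {u ux uxx uy uyy : ℝ → ℝ → ℝ}
    (hu : RectSol x₁ x₂ y₁ y₂ p q u ux uxx uy uyy) :
    RectSol y₁ y₂ x₁ x₂ q p (fun y x => u x y) (fun y x => uy x y) (fun y x => uyy x y)
      (fun y x => ux x y) (fun y x => uxx x y) := by
  refine ⟨hu.cu.comp continuous_swap, hu.cuy.comp continuous_swap,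
    hu.cuyy.comp continuous_swap, hu.cux.comp continuous_swap, hu.cuxx.comp continuous_swap,
    fun y x => hu.dy x y, fun y x => hu.dyy x y, fun y x => hu.dx x y, fun y x => hu.dxx x y,
    ?_, fun x hx => hu.ny₁ x hx, fun x hx => hu.ny₂ x hx, fun y hy => hu.nx₁ y hy,
    fun y hy => hu.nx₂ y hy⟩
  intro y hy x hx
  have h1 := hu.pde x hx y hy
  show uyy x y + uxx x y = -(q y + p x) * u x y
  linear_combination h1

/-- Changing the coefficient on the interval. -/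
theorem NeumannMode.congr {t₁ t₂ : ℝ} {Q Q' a a' a'' : ℝ → ℝ}
    (h : NeumannMode t₁ t₂ Q a a' a'') (hQ : ∀ t ∈ Icc t₁ t₂, Q t = Q' t) :
    NeumannMode t₁ t₂ Q' a a' a'' :=
  ⟨h.d1, h.d2, h.c2, fun t ht => by rw [h.ode t ht, hQ t ht], h.n1, h.n2⟩

/-- Constant multiples of Neumann modes. -/
theorem NeumannMode.smul {t₁ t₂ : ℝ} {Q a a' a'' : ℝ → ℝ}
    (h : NeumannMode t₁ t₂ Q a a' a'') (c : ℝ) :
    NeumannMode t₁ t₂ Q (fun t => c * a t) (fun t => c * a' t) (fun t => c * a'' t) := by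
  refine ⟨fun t => (h.d1 t).const_mul c, fun t => (h.d2 t).const_mul c,
    continuous_const.mul h.c2, ?_, ?_, ?_⟩
  · intro t ht
    show c * a'' t = Q t * (c * a t)
    rw [h.ode t ht]
    ring
  · show c * a' t₁ = 0
    rw [h.n1, mul_zero]
  · show c * a' t₂ = 0
    rw [h.n2, mul_zero]

end Vale.Agent.Lib.P071.LR
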