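import Mathlib
import Vale.Agent.Lib.P071.LR.Defs
import Vale.Agent.Lib.P071.LR.Energy

namespace Vale.Agent.Lib.P071.LR

open Set MeasureTheory Real Filter Topology
open Vale.Agent.Lib.P071

/-- Slices of a jointly continuous function in the second variable are continuous. -/
lemma Vanish_slice_right {F : ℝ → ℝ → ℝ} (hF : Continuous (fun z : ℝ × ℝ => F z.1 z.2))
    (x : ℝ) : Continuous (fun y => F x y) :=
  hF.comp (continuous_const.prodMk continuous_id)

/-- Slices of a jointly continuous function in the first variable are continuous. -/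
lemma Vanish_slice_left {F : ℝ → ℝ → ℝ} (hF : Continuous (fun z : ℝ × ℝ => F z.1 z.2))
    (y : ℝ) : Continuous (fun x => F x y) :=
  hF.comp (continuous_id.prodMk continuous_const)

/-- The inner integral of a jointly continuous function depends continuously on the outer
variable. -/
lemma Vanish_cont_inner {F : ℝ → ℝ → ℝ} (hF : Continuous (fun z : ℝ × ℝ => F z.1 z.2))
    (c d : ℝ) : Continuous (fun x => ∫ y in c..d, F x y) :=
  intervalIntegral.continuous_parametric_intervalIntegral_of_continuous' (f := F) hF c d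

/-- Exchange of the order of integration for a jointly continuous integrand. -/
lemma Vanish_swap {F : ℝ → ℝ → ℝ} (hF : Continuous (fun z : ℝ × ℝ => F z.1 z.2))
    (a b c d : ℝ) :
    ∫ x in a..b, ∫ y in c..d, F x y = ∫ y in c..d, ∫ x in a..b, F x y := by
  apply MeasureTheory.intervalIntegral_intervalIntegral_swap
  have hsub : uIoc a b ×ˢ uIoc c d ⊆ uIcc a b ×ˢ uIcc c d :=
    Set.prod_mono uIoc_subset_uIcc uIoc_subset_uIcc
  have hc : IsCompact (uIcc a b ×ˢ uIcc c d) := isCompact_uIcc.prod isCompact_uIcc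
  have hF' : Continuous (Function.uncurry F) := hF
  exact (hF'.continuousOn.integrableOn_compact hc).mono_set hsub

/-- Additivity of the iterated integral on jointly continuous integrands. -/
lemma Vanish_dbl_add {F G : ℝ → ℝ → ℝ} (hF : Continuous (fun z : ℝ × ℝ => F z.1 z.2))
    (hG : Continuous (fun z : ℝ × ℝ => G z.1 z.2)) (a b c d : ℝ) :
    ∫ x in a..b, ∫ y in c..d, (F x y + G x y) =
      (∫ x in a..b, ∫ y in c..d, F x y) + ∫ x in a..b, ∫ y in c..d, G x y := by
  have h1 : ∀ x, ∫ y in c..d, (F x y + G x y) =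
      (∫ y in c..d, F x y) + ∫ y in c..d, G x y := by
    intro x
    exact intervalIntegral.integral_add ((Vanish_slice_right hF x).intervalIntegrable _ _)
      ((Vanish_slice_right hG x).intervalIntegrable _ _)
  simp_rw [h1]
  exact intervalIntegral.integral_add ((Vanish_cont_inner hF c d).intervalIntegrable _ _)
    ((Vanish_cont_inner hG c d).intervalIntegrable _ _)

/-- Subtractivity of the iterated integral on jointly continuous integrands. -/
lemma Vanish_dbl_sub {F G : ℝ → ℝ → ℝ} (hF : Continuous (fun z : ℝ × ℝ => F z.1 z.2))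
    (hG : Continuous (fun z : ℝ × ℝ => G z.1 z.2)) (a b c d : ℝ) :
    ∫ x in a..b, ∫ y in c..d, (F x y - G x y) =
      (∫ x in a..b, ∫ y in c..d, F x y) - ∫ x in a..b, ∫ y in c..d, G x y := by
  have h1 : ∀ x, ∫ y in c..d, (F x y - G x y) =
      (∫ y in c..d, F x y) - ∫ y in c..d, G x y := by
    intro x
    exact intervalIntegral.integral_sub ((Vanish_slice_right hF x).intervalIntegrable _ _)
      ((Vanish_slice_right hG x).intervalIntegrable _ _)
  simp_rw [h1]
  exact intervalIntegral.integral_sub ((Vanish_cont_inner hF c d).intervalIntegrable _ _)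
    ((Vanish_cont_inner hG c d).intervalIntegrable _ _)

/-- Constant factors come out of the iterated integral. -/
lemma Vanish_dbl_const_mul (F : ℝ → ℝ → ℝ) (k a b c d : ℝ) :
    ∫ x in a..b, ∫ y in c..d, k * F x y = k * ∫ x in a..b, ∫ y in c..d, F x y := by
  have h1 : ∀ x, ∫ y in c..d, k * F x y = k * ∫ y in c..d, F x y := by
    intro x
    exact intervalIntegral.integral_const_mul k _
  simp_rw [h1]
  exact intervalIntegral.integral_const_mul k _

/-- A solution on the rectangle all of whose slices are orthogonal to the two ground states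
vanishes identically, provided the two one-dimensional forms are minimal and `σ + κ < 0`. -/
theorem rect_vanish {x₁ x₂ y₁ y₂ σ κ : ℝ} (hx : x₁ < x₂) (hy : y₁ < y₂) {p q : ℝ → ℝ}
    (hp : Continuous p) (hq : Continuous q) {r rx rxx ry ryy : ℝ → ℝ → ℝ}
    (h : RectSol x₁ x₂ y₁ y₂ p q r rx rxx ry ryy) {X Y : ℝ → ℝ}
    (hM1 : Min1 x₁ x₂ (fun x => p x - κ) X) (hM2 : Min1 y₁ y₂ (fun y => q y - σ) Y)
    (hneg : σ + κ < 0)
    (h1 : ∀ y ∈ Icc y₁ y₂, ∫ x in x₁..x₂, r x y * X x = 0)
    (h2 : ∀ x ∈ Icc x₁ x₂, ∫ y in y₁..y₂, r x y * Y y = 0) :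
    ∀ x ∈ Icc x₁ x₂, ∀ y ∈ Icc y₁ y₂, r x y = 0 := by
  have cR2 : Continuous (fun z : ℝ × ℝ => r z.1 z.2 ^ 2) := h.cu.pow 2
  have cRx2 : Continuous (fun z : ℝ × ℝ => rx z.1 z.2 ^ 2) := h.cux.pow 2
  have cRy2 : Continuous (fun z : ℝ × ℝ => ry z.1 z.2 ^ 2) := h.cuy.pow 2
  have cP : Continuous (fun z : ℝ × ℝ => (p z.1 - κ) * r z.1 z.2 ^ 2) :=
    ((hp.comp continuous_fst).sub continuous_const).mul cR2
  have cQ : Continuous (fun z : ℝ × ℝ => (q z.2 - σ) * r z.1 z.2 ^ 2) :=
    ((hq.comp continuous_snd).sub continuous_const).mul cR2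
  have cPQ : Continuous (fun z : ℝ × ℝ => (p z.1 + q z.2) * r z.1 z.2 ^ 2) :=
    ((hp.comp continuous_fst).add (hq.comp continuous_snd)).mul cR2
  have cKR : Continuous (fun z : ℝ × ℝ => (κ + σ) * r z.1 z.2 ^ 2) :=
    continuous_const.mul cR2
  -- the two slice inequalities, integrated
  have s1 : 0 ≤ ∫ y in y₁..y₂, ∫ x in x₁..x₂, (rx x y ^ 2 - (p x - κ) * r x y ^ 2) := by
    apply intervalIntegral.integral_nonneg hy.le
    intro y hy'
    exact hM1 (fun t => r t y) (fun t => rx t y) (fun t => h.dx t y)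
      (Vanish_slice_left h.cux y) (h1 y hy')
  have s2 : 0 ≤ ∫ x in x₁..x₂, ∫ y in y₁..y₂, (ry x y ^ 2 - (q y - σ) * r x y ^ 2) := by
    apply intervalIntegral.integral_nonneg hx.le
    intro x hx'
    exact hM2 (fun t => r x t) (fun t => ry x t) (fun t => h.dy x t)
      (Vanish_slice_right h.cuy x) (h2 x hx')
  rw [← Vanish_swap (F := fun x y => rx x y ^ 2 - (p x - κ) * r x y ^ 2) (cRx2.sub cP)] at s1
  rw [Vanish_dbl_sub (F := fun x y => rx x y ^ 2) (G := fun x y => (p x - κ) * r x y ^ 2)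
    cRx2 cP] at s1
  rw [Vanish_dbl_sub (F := fun x y => ry x y ^ 2) (G := fun x y => (q y - σ) * r x y ^ 2)
    cRy2 cQ] at s2
  have hE := rect_energy hx.le hy.le hp hq h
  rw [← Vanish_swap (F := fun x y => rx x y ^ 2) cRx2] at hE
  have hsum : (∫ x in x₁..x₂, ∫ y in y₁..y₂, (p x - κ) * r x y ^ 2)
      + (∫ x in x₁..x₂, ∫ y in y₁..y₂, (q y - σ) * r x y ^ 2)
      = (∫ x in x₁..x₂, ∫ y in y₁..y₂, (p x + q y) * r x y ^ 2)
        - (κ + σ) * ∫ x in x₁..x₂, ∫ y in y₁..y₂, r x y ^ 2 := by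
    rw [← Vanish_dbl_add (F := fun x y => (p x - κ) * r x y ^ 2)
      (G := fun x y => (q y - σ) * r x y ^ 2) cP cQ,
      ← Vanish_dbl_const_mul (fun x y => r x y ^ 2) (κ + σ),
      ← Vanish_dbl_sub (F := fun x y => (p x + q y) * r x y ^ 2)
      (G := fun x y => (κ + σ) * r x y ^ 2) cPQ cKR]
    congr 1
    funext x
    congr 1
    funext y
    ring
  have hI0 : 0 ≤ ∫ x in x₁..x₂, ∫ y in y₁..y₂, r x y ^ 2 := by
    apply intervalIntegral.integral_nonneg hx.le
    intro x _
    apply intervalIntegral.integral_nonneg hy.le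
    intro y _
    positivity
  have hI : ∫ x in x₁..x₂, ∫ y in y₁..y₂, r x y ^ 2 = 0 := by
    have hle : 0 ≤ (κ + σ) * ∫ x in x₁..x₂, ∫ y in y₁..y₂, r x y ^ 2 := by linarith
    have hneg' : κ + σ < 0 := by linarith
    nlinarith
  -- the inner integral vanishes for every `x`
  have cG : Continuous (fun x => ∫ y in y₁..y₂, r x y ^ 2) := Vanish_cont_inner cR2 y₁ y₂
  have hG0 : ∀ x, 0 ≤ ∫ y in y₁..y₂, r x y ^ 2 := by
    intro x
    apply intervalIntegral.integral_nonneg hy.le
    intro y _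
    positivity
  have hsq : ∫ x in x₁..x₂, Real.sqrt (∫ y in y₁..y₂, r x y ^ 2) ^ 2 = 0 := by
    have : ∀ x, Real.sqrt (∫ y in y₁..y₂, r x y ^ 2) ^ 2 = ∫ y in y₁..y₂, r x y ^ 2 :=
      fun x => Real.sq_sqrt (hG0 x)
    simp_rw [this]
    exact hI
  have hGz := eq_zero_of_integral_sq_eq_zero (Real.continuous_sqrt.comp cG) hx hsq
  intro x hx' y hy'
  have hGx : ∫ y in y₁..y₂, r x y ^ 2 = 0 := by
    have := hGz x hx'
    exact (Real.sqrt_eq_zero (hG0 x)).1 this
  exact eq_zero_of_integral_sq_eq_zero (Vanish_slice_right h.cu x) hy hGx y hy'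

end Vale.Agent.Lib.P071.LR
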