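import Mathlib
import Vale.Agent.Lib.P071.Core
import Vale.Agent.Lib.P071.LR.Defs
import Vale.Agent.Lib.P071.LR.Ground
import Vale.Agent.Lib.P071.LR.GroundProps
import Vale.Agent.Lib.P071.LR.ModeEq
import Vale.Agent.Lib.P071.LR.Vanish
import Vale.Agent.Lib.P071.LR.Minimal
import Vale.Agent.Lib.P071.LR.Monotone
import Vale.Agent.Lib.P071.LR.NoCritSS
import Vale.Agent.Lib.P071.LR.NoCritOS
import Vale.Agent.Lib.P071.LR.RectOps
import Vale.Agent.Lib.P071.LR.Extremum

namespace Vale.Agent.Lib.P071.LR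

open Set MeasureTheory Real Filter Topology
open Vale.Agent.Lib.P071

/-- Linearity of a slice integral. -/
lemma Final_slice_int {t₁ t₂ : ℝ} {F G H W : ℝ → ℝ} (c₁ c₂ : ℝ) (hF : Continuous F)
    (hG : Continuous G) (hH : Continuous H) (hW : Continuous W) :
    ∫ t in t₁..t₂, (F t - c₁ * G t - c₂ * H t) * W t
      = (∫ t in t₁..t₂, F t * W t) - c₁ * (∫ t in t₁..t₂, G t * W t)
        - c₂ * (∫ t in t₁..t₂, H t * W t) := by
  have e : ∀ t, (F t - c₁ * G t - c₂ * H t) * W t
      = F t * W t - c₁ * (G t * W t) - c₂ * (H t * W t) := fun t => by ring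
  rw [intervalIntegral.integral_congr (fun t _ => e t)]
  rw [intervalIntegral.integral_sub, intervalIntegral.integral_sub,
    intervalIntegral.integral_const_mul, intervalIntegral.integral_const_mul]
  · exact (hF.mul hW).intervalIntegrable _ _
  · exact (continuous_const.mul (hG.mul hW)).intervalIntegrable _ _
  · exact ((hF.mul hW).sub (continuous_const.mul (hG.mul hW))).intervalIntegrable _ _
  · exact (continuous_const.mul (hH.mul hW)).intervalIntegrable _ _

/-- Positivity of the integral of the square of a function positive on the interval. -/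
lemma Final_sq_pos {t₁ t₂ : ℝ} (ht : t₁ < t₂) {X : ℝ → ℝ} (hX : Continuous X)
    (hpos : ∀ t ∈ Icc t₁ t₂, 0 < X t) : 0 < ∫ t in t₁..t₂, X t ^ 2 :=
  intervalIntegral.intervalIntegral_pos_of_pos_on ((hX.pow 2).intervalIntegrable _ _)
    (fun t ht' => pow_pos (hpos t (Ioo_subset_Icc_self ht')) 2) ht

lemma Final_int_pos {t₁ t₂ : ℝ} (ht : t₁ < t₂) {X : ℝ → ℝ} (hX : Continuous X)
    (hpos : ∀ t ∈ Icc t₁ t₂, 0 < X t) : 0 < ∫ t in t₁..t₂, X t :=
  intervalIntegral.intervalIntegral_pos_of_pos_on (hX.intervalIntegrable _ _)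
    (fun t ht' => hpos t (Ioo_subset_Icc_self ht')) ht

/-- **Strict hot spots on a rectangle with a separated weight.** A nonzero solution of
`u_xx + u_yy = -μ (f x + g y) u` on `[x₁,x₂] × [y₁,y₂]` with Neumann conditions, where `f`, `g` are
continuous and nondecreasing, `f + g > 0` on the rectangle except possibly at the corner
`(x₁,y₁)`, and `μ > 0` is at most the first positive Neumann eigenvalue (`RayleighMin2`), has no
interior critical point and takes at every interior point a value strictly between two of its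
boundary values. -/
theorem hot_spots_liouville {x₁ x₂ y₁ y₂ μ : ℝ} (hx : x₁ < x₂) (hy : y₁ < y₂) (hμ : 0 < μ)
    {f g : ℝ → ℝ} (hf : Continuous f) (hg : Continuous g)
    (hfm : MonotoneOn f (Icc x₁ x₂)) (hgm : MonotoneOn g (Icc y₁ y₂))
    (hpos : ∀ x ∈ Icc x₁ x₂, ∀ y ∈ Icc y₁ y₂, (x ≠ x₁ ∨ y ≠ y₁) → 0 < f x + g y)
    {u : ℝ × ℝ → ℝ} (hu : ContDiff ℝ 2 u)
    (hpde : ∀ x ∈ Icc x₁ x₂, ∀ y ∈ Icc y₁ y₂,
        deriv (fun s => deriv (fun r => u (r, y)) s) x
          + deriv (fun s => deriv (fun r => u (x, r)) s) y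
            = -(μ * (f x + g y)) * u (x, y))
    (hN₁ : ∀ y ∈ Icc y₁ y₂,
        deriv (fun r => u (r, y)) x₁ = 0 ∧ deriv (fun r => u (r, y)) x₂ = 0)
    (hN₂ : ∀ x ∈ Icc x₁ x₂,
        deriv (fun r => u (x, r)) y₁ = 0 ∧ deriv (fun r => u (x, r)) y₂ = 0)
    (hne : ∃ x ∈ Icc x₁ x₂, ∃ y ∈ Icc y₁ y₂, u (x, y) ≠ 0)
    (hmin : RayleighMin2 x₁ x₂ y₁ y₂ μ f g) :
    ∀ x ∈ Ioo x₁ x₂, ∀ y ∈ Ioo y₁ y₂,
      ¬ (deriv (fun r => u (r, y)) x = 0 ∧ deriv (fun r => u (x, r)) y = 0) ∧
      ∃ p q : ℝ × ℝ,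
        (p.1 ∈ Icc x₁ x₂ ∧ p.2 ∈ Icc y₁ y₂ ∧ (p.1 = x₁ ∨ p.1 = x₂ ∨ p.2 = y₁ ∨ p.2 = y₂)) ∧
        (q.1 ∈ Icc x₁ x₂ ∧ q.2 ∈ Icc y₁ y₂ ∧ (q.1 = x₁ ∨ q.1 = x₂ ∨ q.2 = y₁ ∨ q.2 = y₂)) ∧
        u p < u (x, y) ∧ u (x, y) < u q := by
  have hx1 : x₁ ∈ Icc x₁ x₂ := ⟨le_rfl, hx.le⟩
  have hy1 : y₁ ∈ Icc y₁ y₂ := ⟨le_rfl, hy.le⟩
  have hpc : Continuous (fun x => μ * f x) := continuous_const.mul hf
  have hqc : Continuous (fun y => μ * g y) := continuous_const.mul hg
  have hpm : MonotoneOn (fun x => μ * f x) (Icc x₁ x₂) := fun a ha b hb hab =>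
    mul_le_mul_of_nonneg_left (hfm ha hb hab) hμ.le
  have hqm : MonotoneOn (fun y => μ * g y) (Icc y₁ y₂) := fun a ha b hb hab =>
    mul_le_mul_of_nonneg_left (hgm ha hb hab) hμ.le
  -- the solution in slice form
  obtain ⟨ux, uxx, uy, uyy, hR⟩ := rectSol_of_contDiff (p := fun x => μ * f x)
    (q := fun y => μ * g y) (x₁ := x₁) (x₂ := x₂) (y₁ := y₁) (y₂ := y₂) hu
    (by
      intro x hx' y hy'
      rw [hpde x hx' y hy']
      ring) hN₁ hN₂
  -- ground states
  obtain ⟨κ, Y, Y', Y'', hY, hYpos⟩ := exists_ground_state hy hqc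
  obtain ⟨σ, X, X', X'', hX, hXpos⟩ := exists_ground_state hx hpc
  have hposx : ∀ x ∈ Ioc x₁ x₂, 0 < μ * f x + μ * g y₁ := by
    intro x hx'
    have h := hpos x ⟨hx'.1.le, hx'.2⟩ y₁ hy1 (Or.inl hx'.1.ne')
    have := mul_pos hμ h
    linarith
  have hposy : ∀ y ∈ Ioc y₁ y₂, 0 < μ * g y + μ * f x₁ := by
    intro y hy'
    have h := hpos x₁ hx1 y ⟨hy'.1.le, hy'.2⟩ (Or.inr hy'.1.ne')
    have := mul_pos hμ h
    linarith
  have G1 : 0 ≤ -(μ * g y₁) - κ := ground_le hy hqc hY hYpos (e := -(μ * g y₁)) (by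
    intro s hs
    have := hqm hy1 hs hs.1
    simp only at this
    linarith)
  have G2 : 0 ≤ -(μ * f x₁) - σ := ground_le hx hpc hX hXpos (e := -(μ * f x₁)) (by
    intro s hs
    have := hpm hx1 hs hs.1
    simp only at this
    linarith)
  have G3 : 0 < μ * g y₁ - σ := ground_lt hx hpc hX hXpos (e := μ * g y₁) hposx
  have hneg : σ + κ < 0 := by linarith
  have hX'nn : ∀ x ∈ Icc x₁ x₂, 0 ≤ X' x := ground_deriv_nonneg hx hpc hX hXpos hpm
  have hY'nn : ∀ y ∈ Icc y₁ y₂, 0 ≤ Y' y := ground_deriv_nonneg hy hqc hY hYpos hqm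
  -- one-dimensional minimality
  have hM1 : Min1 x₁ x₂ (fun x => μ * f x - κ) X :=
    min1_x hx hy hμ hf hg hmin hX hY hXpos hYpos hneg
  have hM2 : Min1 y₁ y₂ (fun y => μ * g y - σ) Y :=
    min1_y hx hy hμ hf hg hmin hX hY hXpos hYpos hneg
  -- the two modes
  have hA := mode_of_rectSol hy.le hR hY
  have hB := mode_of_rectSol hx.le hR.swap hX
  have hNY : 0 < ∫ y in y₁..y₂, Y y ^ 2 := Final_sq_pos hy hY.cont hYpos
  have hNX : 0 < ∫ x in x₁..x₂, X x ^ 2 := Final_sq_pos hx hX.cont hXpos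
  have hIX : 0 < ∫ x in x₁..x₂, X x := Final_int_pos hx hX.cont hXpos
  have hIY : 0 < ∫ y in y₁..y₂, Y y := Final_int_pos hy hY.cont hYpos
  have ha := NeumannMode.smul hA (1 / ∫ y in y₁..y₂, Y y ^ 2)
  have hb := NeumannMode.smul hB (1 / ∫ x in x₁..x₂, X x ^ 2)
  set a : ℝ → ℝ := fun x => (1 / ∫ y in y₁..y₂, Y y ^ 2) * ∫ y in y₁..y₂, u (x, y) * Y y
    with ha_def
  set a' : ℝ → ℝ := fun x => (1 / ∫ y in y₁..y₂, Y y ^ 2) * ∫ y in y₁..y₂, ux x y * Y y
    with ha'_def
  set b : ℝ → ℝ := fun y => (1 / ∫ x in x₁..x₂, X x ^ 2) * ∫ x in x₁..x₂, u (x, y) * X x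
    with hb_def
  set b' : ℝ → ℝ := fun y => (1 / ∫ x in x₁..x₂, X x ^ 2) * ∫ x in x₁..x₂, uy x y * X x
    with hb'_def
  -- the remainder solves the equation
  have hR1 := rectSol_prod (p := fun x => μ * f x) (q := fun y => μ * g y) ha hY
    (by intro x _ y _; ring)
  have hR2 := rectSol_prod (p := fun x => μ * f x) (q := fun y => μ * g y) hX hb
    (by intro x _ y _; ring)
  have hRr := (hR.sub hR1).sub hR2
  -- orthogonality of the modes to the ground states
  have hAX : ∫ x in x₁..x₂, (∫ y in y₁..y₂, u (x, y) * Y y) * X x = 0 :=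
    mode_orth hx.le (c := κ + σ) (by linarith) hA hX (by intro t _; ring)
  have hBY : ∫ y in y₁..y₂, (∫ x in x₁..x₂, u (x, y) * X x) * Y y = 0 :=
    mode_orth hy.le (c := σ + κ) (by linarith) hB hY (by intro t _; ring)
  have haX : ∫ x in x₁..x₂, a x * X x = 0 := by
    have e : ∀ x, a x * X x
        = (1 / ∫ y in y₁..y₂, Y y ^ 2) * ((∫ y in y₁..y₂, u (x, y) * Y y) * X x) := fun x => by
      simp only [ha_def]; ring
    rw [intervalIntegral.integral_congr (fun x _ => e x), intervalIntegral.integral_const_mul,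
      hAX, mul_zero]
  have hbY : ∫ y in y₁..y₂, b y * Y y = 0 := by
    have e : ∀ y, b y * Y y
        = (1 / ∫ x in x₁..x₂, X x ^ 2) * ((∫ x in x₁..x₂, u (x, y) * X x) * Y y) := fun y => by
      simp only [hb_def]; ring
    rw [intervalIntegral.integral_congr (fun y _ => e y), intervalIntegral.integral_const_mul,
      hBY, mul_zero]
  have hucx : ∀ y, Continuous (fun x => u (x, y)) := fun y =>
    hu.continuous.comp (continuous_id.prodMk continuous_const)
  have hucy : ∀ x, Continuous (fun y => u (x, y)) := fun x =>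
    hu.continuous.comp (continuous_const.prodMk continuous_id)
  have h1 : ∀ y ∈ Icc y₁ y₂,
      ∫ x in x₁..x₂, (u (x, y) - a x * Y y - X x * b y) * X x = 0 := by
    intro y _
    have e : ∀ x, (u (x, y) - a x * Y y - X x * b y) * X x
        = (u (x, y) - Y y * a x - b y * X x) * X x := fun x => by ring
    rw [intervalIntegral.integral_congr (fun x _ => e x),
      Final_slice_int (Y y) (b y) (hucx y) ha.cont hX.cont hX.cont, haX]
    have e2 : ∫ x in x₁..x₂, X x * X x = ∫ x in x₁..x₂, X x ^ 2 := by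
      congr 1; funext x; ring
    rw [e2]
    simp only [hb_def]
    field_simp
    ring
  have h2 : ∀ x ∈ Icc x₁ x₂,
      ∫ y in y₁..y₂, (u (x, y) - a x * Y y - X x * b y) * Y y = 0 := by
    intro x _
    rw [Final_slice_int (a x) (X x) (hucy x) hY.cont hb.cont hY.cont, hbY]
    have e2 : ∫ y in y₁..y₂, Y y * Y y = ∫ y in y₁..y₂, Y y ^ 2 := by
      congr 1; funext y; ring
    rw [e2]
    simp only [ha_def]
    field_simp
    ring
  have hzero := rect_vanish hx hy hpc hqc hRr hM1 hM2 hneg h1 h2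
  have hrep : ∀ x ∈ Icc x₁ x₂, ∀ y ∈ Icc y₁ y₂, u (x, y) = a x * Y y + X x * b y := by
    intro x hx' y hy'
    have := hzero x hx' y hy'
    linarith
  -- derivatives at interior points
  have hux : ∀ x ∈ Ioo x₁ x₂, ∀ y ∈ Icc y₁ y₂, ux x y = a' x * Y y + X' x * b y := by
    intro x hx' y hy'
    have d1 : HasDerivAt (fun t => u (t, y)) (ux x y) x := hR.dx x y
    have d2 : HasDerivAt (fun t => a t * Y y + X t * b y) (a' x * Y y + X' x * b y) x :=
      ((ha.d1 x).mul_const _).add ((hX.d1 x).mul_const _)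
    have hev : (fun t => u (t, y)) =ᶠ[𝓝 x] fun t => a t * Y y + X t * b y := by
      filter_upwards [Ioo_mem_nhds hx'.1 hx'.2] with t ht
      exact hrep t (Ioo_subset_Icc_self ht) y hy'
    exact d1.unique (d2.congr_of_eventuallyEq hev)
  have huy : ∀ x ∈ Icc x₁ x₂, ∀ y ∈ Ioo y₁ y₂, uy x y = a x * Y' y + X x * b' y := by
    intro x hx' y hy'
    have d1 : HasDerivAt (fun t => u (x, t)) (uy x y) y := hR.dy x y
    have d2 : HasDerivAt (fun t => a x * Y t + X x * b t) (a x * Y' y + X x * b' y) y :=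
      ((hY.d1 y).const_mul _).add ((hb.d1 y).const_mul _)
    have hev : (fun t => u (x, t)) =ᶠ[𝓝 y] fun t => a x * Y t + X x * b t := by
      filter_upwards [Ioo_mem_nhds hy'.1 hy'.2] with t ht
      exact hrep x hx' t (Ioo_subset_Icc_self ht)
    exact d1.unique (d2.congr_of_eventuallyEq hev)
  -- monotonicity of the modes
  have hPx : ∀ t ∈ Ioc x₁ x₂, 0 < μ * f t - κ := fun t ht => by
    have := hposx t ht
    linarith
  have hPy : ∀ t ∈ Ioc y₁ y₂, 0 < μ * g t - σ := fun t ht => by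
    have := hposy t ht
    linarith
  have hacase : (∀ t ∈ Icc x₁ x₂, a t = 0) ∨ (∀ t ∈ Ioo x₁ x₂, a' t ≠ 0) := by
    by_cases h : ∀ t ∈ Icc x₁ x₂, a t = 0
    · exact Or.inl h
    · right
      intro t ht h0
      exact h (mode_deriv_ne_zero hx hpc hX.cont hPx hIX.ne' hM1 ha ht h0)
  have hbcase : (∀ t ∈ Icc y₁ y₂, b t = 0) ∨ (∀ t ∈ Ioo y₁ y₂, b' t ≠ 0) := by
    by_cases h : ∀ t ∈ Icc y₁ y₂, b t = 0
    · exact Or.inl h
    · right
      intro t ht h0
      exact h (mode_deriv_ne_zero hy hqc hY.cont hPy hIY.ne' hM2 hb ht h0)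
  have hA' : κ + μ * g y₁ ≤ 0 := by linarith
  -- no interior critical point
  have hno : ∀ x ∈ Ioo x₁ x₂, ∀ y ∈ Ioo y₁ y₂, ¬ (ux x y = 0 ∧ uy x y = 0) := by
    intro x hx' y hy' hcrit
    have hxI : x ∈ Icc x₁ x₂ := Ioo_subset_Icc_self hx'
    have hyI : y ∈ Icc y₁ y₂ := Ioo_subset_Icc_self hy'
    have e1 : a' x * Y y + X' x * b y = 0 := by
      rw [← hux x hx' y hyI]; exact hcrit.1
    have e2 : a x * Y' y + X x * b' y = 0 := by
      rw [← huy x hxI y hy']; exact hcrit.2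
    rcases hacase with haz | hanz
    · rcases hbcase with hbz | hbnz
      · obtain ⟨s, hs, t, ht, hst⟩ := hne
        apply hst
        rw [hrep s hs t ht, haz s hs, hbz t ht]
        ring
      · rw [haz x hxI, zero_mul, zero_add] at e2
        rcases mul_eq_zero.1 e2 with h | h
        · exact (hXpos x hxI).ne' h
        · exact hbnz y hy' h
    · rcases hbcase with hbz | hbnz
      · rw [hbz y hyI, mul_zero, add_zero] at e1
        rcases mul_eq_zero.1 e1 with h | h
        · exact hanz x hx' h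
        · exact (hYpos y hyI).ne' h
      · rcases sign_const_of_ne_zero ha.cont' hx hanz with hap | han
        · rcases sign_const_of_ne_zero hb.cont' hy hbnz with hbp | hbn
          · -- both increasing: apply the decreasing case to the negatives
            have ha2 := NeumannMode.smul ha (-1)
            have hb2 := NeumannMode.smul hb (-1)
            exact no_crit_SS hx hy hpc hqc hqm hposx hA' G3 ha2 hX hb2 hY hXpos hYpos hX'nn hY'nn
              (fun s hs => by have := hap s hs; linarith)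
              (fun s hs => by have := hbp s hs; linarith) hx' hy'
              (by linarith) (by linarith)
          · have ha2 := NeumannMode.smul ha (-1)
            have hb2 := NeumannMode.smul hb (-1)
            exact no_crit_OS hx hy hpc hqc hneg ha2 hX hb2 hY hXpos hYpos hX'nn hY'nn
              (fun s hs => by have := hap s hs; linarith)
              (fun s hs => by have := hbn s hs; linarith) hx' hy'
              (by linarith) (by linarith)
        · rcases sign_const_of_ne_zero hb.cont' hy hbnz with hbp | hbn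
          · exact no_crit_OS hx hy hpc hqc hneg ha hX hb hY hXpos hYpos hX'nn hY'nn
              han hbp hx' hy' e1 e2
          · exact no_crit_SS hx hy hpc hqc hqm hposx hA' G3 ha hX hb hY hXpos hYpos hX'nn hY'nn
              han hbn hx' hy' e1 e2
  intro x hx' y hy'
  obtain ⟨p, q, hp, hq, h3, h4⟩ :=
    extremum_boundary hx hy (U := fun x y => u (x, y)) hR.cu hR.dx hR.dy hno x hx' y hy'
  refine ⟨?_, p, q, hp, hq, h3, h4⟩
  have hdx : deriv (fun r => u (r, y)) x = ux x y := (hR.dx x y).deriv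
  have hdy : deriv (fun r => u (x, r)) y = uy x y := (hR.dy x y).deriv
  rw [hdx, hdy]
  exact hno x hx' y hy'

end Vale.Agent.Lib.P071.LR
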