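import Mathlib
import Vale.Agent.Lib.P071.LR.Defs
import Vale.Agent.Lib.P071.LR.GroundProps

namespace Vale.Agent.Lib.P071.LR

open Set MeasureTheory Real Filter Topology
open Vale.Agent.Lib.P071

/-- A continuous function that is nonnegative on `[a,b]` and positive at some point of `[a,b]`
has a positive integral over `[a,b]`. -/
lemma groundStrict_int_pos {F : ℝ → ℝ} (hF : Continuous F) {a b : ℝ} (hab : a < b)
    (hnn : ∀ t ∈ Icc a b, 0 ≤ F t) {t₀ : ℝ} (ht₀ : t₀ ∈ Icc a b) (hpos : 0 < F t₀) :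
    0 < ∫ t in a..b, F t := by
  have h0 : 0 ≤ ∫ t in a..b, F t := intervalIntegral.integral_nonneg hab.le hnn
  rcases h0.lt_or_eq with h | h
  · exact h
  · exfalso
    have hg : Continuous (fun t => Real.sqrt (max (F t) 0)) :=
      Real.continuous_sqrt.comp (hF.max continuous_const)
    have hsq : ∫ t in a..b, (Real.sqrt (max (F t) 0)) ^ 2 = ∫ t in a..b, F t := by
      apply intervalIntegral.integral_congr
      intro t ht
      rw [uIcc_of_le hab.le] at ht
      show Real.sqrt (max (F t) 0) ^ 2 = F t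
      rw [Real.sq_sqrt (le_max_right _ _), max_eq_left (hnn t ht)]
    have hz : Real.sqrt (max (F t₀) 0) = 0 :=
      eq_zero_of_integral_sq_eq_zero hg hab (hsq.trans h.symm) t₀ ht₀
    have hle : max (F t₀) 0 ≤ 0 := Real.sqrt_eq_zero'.mp hz
    have hle2 : F t₀ ≤ max (F t₀) 0 := le_max_left _ _
    linarith

/-- If `Q + e ≥ 0` on `[s₁,s₂]` and `Q + e > 0` at some point of `[s₁,s₂]`, then the ground state
eigenvalue satisfies `κ < e`. -/
theorem ground_lt_of_exists {s₁ s₂ κ e : ℝ} (hs : s₁ < s₂) {Q Y Y' Y'' : ℝ → ℝ}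
    (hQ : Continuous Q) (hY : NeumannMode s₁ s₂ (fun s => -(κ + Q s)) Y Y' Y'')
    (hpos : ∀ s ∈ Icc s₁ s₂, 0 < Y s) (hQe : ∀ s ∈ Icc s₁ s₂, 0 ≤ Q s + e)
    (hex : ∃ s₀ ∈ Icc s₁ s₂, 0 < Q s₀ + e) : 0 < e - κ := by
  obtain ⟨s₀, hs₀, hs₀pos⟩ := hex
  have hc1 : Continuous (fun s => (Q s + e) * Y s) := (hQ.add continuous_const).mul hY.cont
  have hc2 : Continuous (fun s => (κ + Q s) * Y s) := (continuous_const.add hQ).mul hY.cont
  have hp : 0 < ∫ s in s₁..s₂, (Q s + e) * Y s :=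
    groundStrict_int_pos hc1 hs (fun s hsm => mul_nonneg (hQe s hsm) (hpos s hsm).le) hs₀
      (mul_pos hs₀pos (hpos s₀ hs₀))
  have hI : 0 < ∫ s in s₁..s₂, Y s :=
    intervalIntegral.intervalIntegral_pos_of_pos_on (hY.cont.intervalIntegrable _ _)
      (fun x hx => hpos x (Ioo_subset_Icc_self hx)) hs
  have h0 := ground_int_zero hs.le hY
  have h1 : ∫ s in s₁..s₂, ((Q s + e) * Y s - (κ + Q s) * Y s)
      = (∫ s in s₁..s₂, (Q s + e) * Y s) - ∫ s in s₁..s₂, (κ + Q s) * Y s :=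
    intervalIntegral.integral_sub (hc1.intervalIntegrable s₁ s₂) (hc2.intervalIntegrable s₁ s₂)
  have h2 : ∫ s in s₁..s₂, ((Q s + e) * Y s - (κ + Q s) * Y s)
      = (e - κ) * ∫ s in s₁..s₂, Y s := by
    rw [← intervalIntegral.integral_const_mul]
    congr 1
    funext s
    ring
  have hid : (e - κ) * ∫ s in s₁..s₂, Y s = ∫ s in s₁..s₂, (Q s + e) * Y s := by
    rw [← h2, h1, h0, sub_zero]
  rw [← hid] at hp
  exact (mul_pos_iff_of_pos_right hI).mp hp

end Vale.Agent.Lib.P071.LR
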