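import Mathlib
import Vale.Agent.Lib.P071.LR.Defs
import Vale.Agent.Lib.P071.LR.NoCritSS

namespace Vale.Agent.Lib.P071.LR

open Set MeasureTheory Real Filter Topology
open Vale.Agent.Lib.P071

/-- **Hard bound.** At a point where `X' a > 0` (with `a` strictly decreasing), one has
`c X' a < -a' X`, for every constant `c ≥ 0` with `(p - κ) + c (p + σ) ≥ 0` on the interval. -/
theorem hard_bound {x₁ x₂ σ κ c : ℝ} (hx : x₁ < x₂) {p : ℝ → ℝ} (hp : Continuous p)
    {a a' a'' X X' X'' : ℝ → ℝ}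
    (ha : NeumannMode x₁ x₂ (fun x => κ - p x) a a' a'')
    (hX : NeumannMode x₁ x₂ (fun x => -(σ + p x)) X X' X'')
    (hXpos : ∀ x ∈ Icc x₁ x₂, 0 < X x)
    (ha' : ∀ x ∈ Ioo x₁ x₂, a' x < 0)
    (hc : 0 ≤ c) (hB : ∀ t ∈ Icc x₁ x₂, 0 ≤ (p t - κ) + c * (p t + σ))
    {x : ℝ} (hxm : x ∈ Ioo x₁ x₂) (hhard : 0 < X' x * a x) :
    c * (X' x * a x) < -(a' x) * X x := by
  have hWd : ∀ t, HasDerivAt (fun t => -(a' t) * X t - c * (X' t * a t))
      (-(a'' t) * X t + -(a' t) * X' t - c * (X'' t * a t + X' t * a' t)) t := by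
    intro t
    exact (((ha.d2 t).neg).mul (hX.d1 t)).sub (((hX.d2 t).mul (ha.d1 t)).const_mul c)
  have hWc : Continuous (fun t => -(a' t) * X t - c * (X' t * a t)) :=
    continuous_iff_continuousAt.2 fun t => (hWd t).continuousAt
  have hkey : ∀ t ∈ Icc x₁ x₂,
      -(a'' t) * X t + -(a' t) * X' t - c * (X'' t * a t + X' t * a' t)
        = (a t * X t) * ((p t - κ) + c * (p t + σ)) - (1 + c) * (a' t * X' t) := by
    intro t ht
    have e1 : a'' t = (κ - p t) * a t := ha.ode t ht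
    have e2 : X'' t = -(σ + p t) * X t := hX.ode t ht
    rw [e1, e2]
    ring
  have ha'le : ∀ t ∈ Icc x₁ x₂, a' t ≤ 0 := by
    intro t ht
    rcases eq_or_lt_of_le ht.1 with h | h
    · rw [← h, ha.n1]
    · rcases eq_or_lt_of_le ht.2 with h2 | h2
      · rw [h2, ha.n2]
      · exact (ha' t ⟨h, h2⟩).le
  have hanti : StrictAntiOn a (Icc x₁ x₂) := by
    apply strictAntiOn_of_deriv_neg (convex_Icc x₁ x₂) ha.cont.continuousOn
    intro t ht
    rw [interior_Icc] at ht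
    rw [(ha.d1 t).deriv]
    exact ha' t ht
  have hxI : x ∈ Icc x₁ x₂ := ⟨hxm.1.le, hxm.2.le⟩
  rcases pos_and_pos_or_neg_and_neg_of_mul_pos hhard with ⟨hXx, hax⟩ | ⟨hXx, hax⟩
  · -- the last zero of `X'` before `x`
    have hScomp : IsCompact {t | t ∈ Icc x₁ x ∧ X' t = 0} := by
      have hcl : IsClosed {t | t ∈ Icc x₁ x ∧ X' t = 0} :=
        isClosed_Icc.inter (isClosed_eq hX.cont' continuous_const)
      exact isCompact_Icc.of_isClosed_subset hcl (fun t ht => ht.1)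
    have hSne : {t | t ∈ Icc x₁ x ∧ X' t = 0}.Nonempty :=
      ⟨x₁, left_mem_Icc.mpr hxm.1.le, hX.n1⟩
    obtain ⟨t₀, ht₀S, ht₀max⟩ := hScomp.exists_isGreatest hSne
    have ht₀x : t₀ < x := by
      rcases lt_or_eq_of_le ht₀S.1.2 with h | h
      · exact h
      · exfalso
        have h0 := ht₀S.2
        rw [h] at h0
        linarith
    have hXpos' : ∀ t ∈ Ioc t₀ x, 0 < X' t := by
      intro t ht
      by_contra hcon
      have hle : X' t ≤ 0 := not_lt.mp hcon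
      have hz : (0 : ℝ) ∈ Icc (X' t) (X' x) := ⟨hle, hXx.le⟩
      obtain ⟨z, hz1, hz2⟩ := intermediate_value_Icc ht.2 hX.cont'.continuousOn hz
      have hzS : z ∈ {t | t ∈ Icc x₁ x ∧ X' t = 0} :=
        ⟨⟨le_trans ht₀S.1.1 (le_trans ht.1.le hz1.1), hz1.2⟩, hz2⟩
      have := ht₀max hzS
      linarith [hz1.1, ht.1]
    have hmono : StrictMonoOn (fun t => -(a' t) * X t - c * (X' t * a t)) (Icc t₀ x) := by
      apply strictMonoOn_of_deriv_pos (convex_Icc t₀ x) hWc.continuousOn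
      intro t ht
      rw [interior_Icc] at ht
      rw [(hWd t).deriv]
      have htI : t ∈ Icc x₁ x₂ :=
        ⟨le_trans ht₀S.1.1 ht.1.le, (lt_trans ht.2 hxm.2).le⟩
      rw [hkey t htI]
      have h1 : a x < a t := hanti htI hxI ht.2
      have h2 := hXpos t htI
      have h3 := hB t htI
      have h4 : a' t < 0 := ha' t ⟨lt_of_le_of_lt ht₀S.1.1 ht.1, lt_trans ht.2 hxm.2⟩
      have h5 := hXpos' t ⟨ht.1, ht.2.le⟩
      have h6 : 0 ≤ (a t * X t) * ((p t - κ) + c * (p t + σ)) :=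
        mul_nonneg (mul_nonneg (by linarith) h2.le) h3
      have h7 : a' t * X' t < 0 := mul_neg_of_neg_of_pos h4 h5
      have h8 : (1 + c) * (a' t * X' t) < 0 := mul_neg_of_pos_of_neg (by linarith) h7
      linarith
    have hlt := hmono (left_mem_Icc.mpr ht₀x.le) (right_mem_Icc.mpr ht₀x.le) ht₀x
    have hlt' : -(a' t₀) * X t₀ - c * (X' t₀ * a t₀) < -(a' x) * X x - c * (X' x * a x) := hlt
    have ht₀I : t₀ ∈ Icc x₁ x₂ := ⟨ht₀S.1.1, le_trans ht₀S.1.2 hxm.2.le⟩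
    rw [ht₀S.2] at hlt'
    have h9 : 0 ≤ -(a' t₀) * X t₀ :=
      mul_nonneg (neg_nonneg.mpr (ha'le t₀ ht₀I)) (hXpos t₀ ht₀I).le
    linarith
  · -- the first zero of `X'` after `x`
    have hScomp : IsCompact {t | t ∈ Icc x x₂ ∧ X' t = 0} := by
      have hcl : IsClosed {t | t ∈ Icc x x₂ ∧ X' t = 0} :=
        isClosed_Icc.inter (isClosed_eq hX.cont' continuous_const)
      exact isCompact_Icc.of_isClosed_subset hcl (fun t ht => ht.1)
    have hSne : {t | t ∈ Icc x x₂ ∧ X' t = 0}.Nonempty :=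
      ⟨x₂, right_mem_Icc.mpr hxm.2.le, hX.n2⟩
    obtain ⟨t₀, ht₀S, ht₀min⟩ := hScomp.exists_isLeast hSne
    have ht₀x : x < t₀ := by
      rcases lt_or_eq_of_le ht₀S.1.1 with h | h
      · exact h
      · exfalso
        have h0 := ht₀S.2
        rw [← h] at h0
        linarith
    have hXneg' : ∀ t ∈ Ico x t₀, X' t < 0 := by
      intro t ht
      by_contra hcon
      have hle : 0 ≤ X' t := not_lt.mp hcon
      have hz : (0 : ℝ) ∈ Icc (X' x) (X' t) := ⟨hXx.le, hle⟩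
      obtain ⟨z, hz1, hz2⟩ := intermediate_value_Icc ht.1 hX.cont'.continuousOn hz
      have hzS : z ∈ {t | t ∈ Icc x x₂ ∧ X' t = 0} :=
        ⟨⟨hz1.1, le_trans hz1.2 (le_trans ht.2.le ht₀S.1.2)⟩, hz2⟩
      have := ht₀min hzS
      linarith [hz1.2, ht.2]
    have hmono : StrictAntiOn (fun t => -(a' t) * X t - c * (X' t * a t)) (Icc x t₀) := by
      apply strictAntiOn_of_deriv_neg (convex_Icc x t₀) hWc.continuousOn
      intro t ht
      rw [interior_Icc] at ht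
      rw [(hWd t).deriv]
      have htI : t ∈ Icc x₁ x₂ :=
        ⟨(lt_trans hxm.1 ht.1).le, le_trans ht.2.le ht₀S.1.2⟩
      rw [hkey t htI]
      have h1 : a t < a x := hanti hxI htI ht.1
      have h2 := hXpos t htI
      have h3 := hB t htI
      have h4 : a' t < 0 := ha' t ⟨lt_trans hxm.1 ht.1, lt_of_lt_of_le ht.2 ht₀S.1.2⟩
      have h5 := hXneg' t ⟨ht.1.le, ht.2⟩
      have h6 : (a t * X t) * ((p t - κ) + c * (p t + σ)) ≤ 0 :=
        mul_nonpos_of_nonpos_of_nonneg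
          (mul_nonpos_of_nonpos_of_nonneg (by linarith) h2.le) h3
      have h7 : 0 < a' t * X' t := mul_pos_of_neg_of_neg h4 h5
      have h8 : 0 < (1 + c) * (a' t * X' t) := mul_pos (by linarith) h7
      linarith
    have hlt := hmono (left_mem_Icc.mpr ht₀x.le) (right_mem_Icc.mpr ht₀x.le) ht₀x
    have hlt' : -(a' t₀) * X t₀ - c * (X' t₀ * a t₀) < -(a' x) * X x - c * (X' x * a x) := hlt
    have ht₀I : t₀ ∈ Icc x₁ x₂ := ⟨le_trans hxm.1.le ht₀S.1.1, ht₀S.1.2⟩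
    rw [ht₀S.2] at hlt'
    have h9 : 0 ≤ -(a' t₀) * X t₀ :=
      mul_nonneg (neg_nonneg.mpr (ha'le t₀ ht₀I)) (hXpos t₀ ht₀I).le
    linarith

end Vale.Agent.Lib.P071.LR
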