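import Mathlib
import Vale.Agent.Lib.P071.LR.Defs
import Vale.Agent.Lib.P071.LR.NoCritSS

namespace Vale.Agent.Lib.P071.LR

open Set MeasureTheory Real Filter Topology
open Vale.Agent.Lib.P071

/-- **Sign rule.** If the excited mode `a` is strictly decreasing and `X` is the positive ground
state, with `σ + κ < 0`, then `a' X < X' a` on the open interval. -/
theorem sign_rule {x₁ x₂ σ κ : ℝ} (hx : x₁ < x₂) {p : ℝ → ℝ} (hp : Continuous p)
    (hneg : σ + κ < 0) {a a' a'' X X' X'' : ℝ → ℝ}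
    (ha : NeumannMode x₁ x₂ (fun x => κ - p x) a a' a'')
    (hX : NeumannMode x₁ x₂ (fun x => -(σ + p x)) X X' X'')
    (hXpos : ∀ x ∈ Icc x₁ x₂, 0 < X x)
    (ha' : ∀ x ∈ Ioo x₁ x₂, a' x < 0) {x : ℝ} (hxm : x ∈ Ioo x₁ x₂) :
    a' x * X x < X' x * a x := by
  have _hp := hp
  have _hx := hx
  obtain ⟨Φ, hΦ⟩ : ∃ Φ : ℝ → ℝ, Φ = fun t => a' t * X t - X' t * a t := ⟨_, rfl⟩
  have hΦd : ∀ t,
      HasDerivAt Φ (a'' t * X t + a' t * X' t - (X'' t * a t + X' t * a' t)) t := by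
    intro t
    rw [hΦ]
    exact ((ha.d2 t).mul (hX.d1 t)).sub ((hX.d2 t).mul (ha.d1 t))
  have hΦc : Continuous Φ := continuous_iff_continuousAt.2 fun t => (hΦd t).continuousAt
  have hder : ∀ t ∈ Icc x₁ x₂,
      a'' t * X t + a' t * X' t - (X'' t * a t + X' t * a' t) = (κ + σ) * (a t * X t) := by
    intro t ht
    rw [ha.ode t ht, hX.ode t ht]
    ring
  have hanti : StrictAntiOn a (Icc x₁ x₂) := by
    apply strictAntiOn_of_deriv_neg (convex_Icc x₁ x₂) ha.cont.continuousOn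
    intro t ht
    rw [interior_Icc] at ht
    rw [(ha.d1 t).deriv]
    exact ha' t ht
  have hΦ1 : Φ x₁ = 0 := by
    rw [hΦ]
    change a' x₁ * X x₁ - X' x₁ * a x₁ = 0
    rw [ha.n1, hX.n1]
    ring
  have hΦ2 : Φ x₂ = 0 := by
    rw [hΦ]
    change a' x₂ * X x₂ - X' x₂ * a x₂ = 0
    rw [ha.n2, hX.n2]
    ring
  have hxI : x ∈ Icc x₁ x₂ := Ioo_subset_Icc_self hxm
  have hneg' : κ + σ < 0 := by linarith
  have goal : Φ x < 0 := by
    rcases lt_or_ge (a x) 0 with h0 | h0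
    · have hmono : StrictMonoOn Φ (Icc x x₂) := by
        apply strictMonoOn_of_deriv_pos (convex_Icc x x₂) hΦc.continuousOn
        intro t ht
        rw [interior_Icc] at ht
        have htI : t ∈ Icc x₁ x₂ := ⟨(lt_trans hxm.1 ht.1).le, ht.2.le⟩
        rw [(hΦd t).deriv, hder t htI]
        have hat : a t < 0 := lt_trans (hanti hxI htI ht.1) h0
        exact mul_pos_of_neg_of_neg hneg' (mul_neg_of_neg_of_pos hat (hXpos t htI))
      have h := hmono (left_mem_Icc.mpr hxm.2.le) (right_mem_Icc.mpr hxm.2.le) hxm.2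
      rw [hΦ2] at h
      exact h
    · have hmono : StrictAntiOn Φ (Icc x₁ x) := by
        apply strictAntiOn_of_deriv_neg (convex_Icc x₁ x) hΦc.continuousOn
        intro t ht
        rw [interior_Icc] at ht
        have htI : t ∈ Icc x₁ x₂ := ⟨ht.1.le, (lt_trans ht.2 hxm.2).le⟩
        rw [(hΦd t).deriv, hder t htI]
        have hat : 0 < a t := lt_of_le_of_lt h0 (hanti htI hxI ht.2)
        exact mul_neg_of_neg_of_pos hneg' (mul_pos hat (hXpos t htI))
      have h := hmono (left_mem_Icc.mpr hxm.1.le) (right_mem_Icc.mpr hxm.1.le) hxm.1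
      rw [hΦ1] at h
      exact h
  rw [hΦ] at goal
  have goal' : a' x * X x - X' x * a x < 0 := goal
  linarith

end Vale.Agent.Lib.P071.LR
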