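import Mathlib
import Vale.Agent.Lib.P071.LR.Defs
import Vale.Agent.Lib.P071.LR.SignRule
import Vale.Agent.Lib.P071.LR.HardBound

namespace Vale.Agent.Lib.P071.LR

open Set MeasureTheory Real Filter Topology
open Vale.Agent.Lib.P071

/-- **No critical point, general weights.** With both excited modes strictly decreasing, the
identity `(a' X)(b' Y) = (X' a)(Y' b)` (a consequence of the two critical point equations) is
impossible at an interior point. No monotonicity of `p`, `q` is assumed. -/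
theorem no_crit_gen {x₁ x₂ y₁ y₂ σ κ cx cy : ℝ} (hx : x₁ < x₂) (hy : y₁ < y₂) {p q : ℝ → ℝ}
    (hp : Continuous p) (hq : Continuous q) (hneg : σ + κ < 0)
    (hcx : 0 ≤ cx) (hcy : 0 ≤ cy) (hc : 1 ≤ cx * cy)
    (hBx : ∀ t ∈ Icc x₁ x₂, 0 ≤ (p t - κ) + cx * (p t + σ))
    (hBy : ∀ t ∈ Icc y₁ y₂, 0 ≤ (q t - σ) + cy * (q t + κ))
    {a a' a'' X X' X'' b b' b'' Y Y' Y'' : ℝ → ℝ}
    (ha : NeumannMode x₁ x₂ (fun x => κ - p x) a a' a'')
    (hX : NeumannMode x₁ x₂ (fun x => -(σ + p x)) X X' X'')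
    (hb : NeumannMode y₁ y₂ (fun y => σ - q y) b b' b'')
    (hY : NeumannMode y₁ y₂ (fun y => -(κ + q y)) Y Y' Y'')
    (hXpos : ∀ x ∈ Icc x₁ x₂, 0 < X x) (hYpos : ∀ y ∈ Icc y₁ y₂, 0 < Y y)
    (ha' : ∀ x ∈ Ioo x₁ x₂, a' x < 0) (hb' : ∀ y ∈ Ioo y₁ y₂, b' y < 0)
    {x y : ℝ} (hxm : x ∈ Ioo x₁ x₂) (hym : y ∈ Ioo y₁ y₂)
    (hid : (a' x * X x) * (b' y * Y y) = (X' x * a x) * (Y' y * b y)) : False := by
  have hxI : x ∈ Icc x₁ x₂ := Ioo_subset_Icc_self hxm
  have hyI : y ∈ Icc y₁ y₂ := Ioo_subset_Icc_self hym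
  have hP : 0 < -(a' x) * X x := mul_pos (by linarith [ha' x hxm]) (hXpos x hxI)
  have hR : 0 < -(b' y) * Y y := mul_pos (by linarith [hb' y hym]) (hYpos y hyI)
  have sx : a' x * X x < X' x * a x := sign_rule hx hp hneg ha hX hXpos ha' hxm
  have sy : b' y * Y y < Y' y * b y :=
    sign_rule hy hq (by linarith) hb hY hYpos hb' hym
  set P := -(a' x) * X x with hPdef
  set R := -(b' y) * Y y with hRdef
  set Q := X' x * a x with hQdef
  set S := Y' y * b y with hSdef
  have hid' : P * R = Q * S := by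
    rw [hPdef, hRdef]
    linear_combination hid
  have sx' : -P < Q := by rw [hPdef]; linarith
  have sy' : -R < S := by rw [hRdef]; linarith
  have hQS : 0 < Q * S := by rw [← hid']; exact mul_pos hP hR
  rcases lt_trichotomy Q 0 with hQ | hQ | hQ
  · have hS : S < 0 := by
      by_contra h
      have h := not_lt.1 h
      have : Q * S ≤ 0 := mul_nonpos_of_nonpos_of_nonneg hQ.le h
      linarith
    have h1 : Q * S < P * R := by
      have h2 : (-Q) * (-S) < P * R :=
        mul_lt_mul'' (by linarith) (by linarith) (by linarith) (by linarith)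
      linarith [h2]
    linarith
  · rw [hQ, zero_mul] at hQS
    exact lt_irrefl _ hQS
  · have hS : 0 < S := by
      by_contra h
      have h := not_lt.1 h
      have : Q * S ≤ 0 := mul_nonpos_of_nonneg_of_nonpos hQ.le h
      linarith
    have hx1 : cx * Q < P := hard_bound hx hp ha hX hXpos ha' hcx hBx hxm hQ
    have hy1 : cy * S < R := hard_bound hy hq hb hY hYpos hb' hcy hBy hym hS
    have h2 : (cx * Q) * (cy * S) < P * R :=
      mul_lt_mul'' hx1 hy1 (mul_nonneg hcx hQ.le) (mul_nonneg hcy hS.le)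
    have h3 : Q * S ≤ (cx * cy) * (Q * S) := by
      have := mul_le_mul_of_nonneg_right hc hQS.le
      linarith
    have h4 : (cx * Q) * (cy * S) = (cx * cy) * (Q * S) := by ring
    linarith

end Vale.Agent.Lib.P071.LR
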