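import Mathlib
import Vale.Agent.Lib.P071.Core
import Vale.Agent.Lib.P071.LR.Defs
import Vale.Agent.Lib.P071.LR.Ground
import Vale.Agent.Lib.P071.LR.GroundProps
import Vale.Agent.Lib.P071.LR.GroundStrict
import Vale.Agent.Lib.P071.LR.ModeEq
import Vale.Agent.Lib.P071.LR.Vanish
import Vale.Agent.Lib.P071.LR.Minimal
import Vale.Agent.Lib.P071.LR.Monotone
import Vale.Agent.Lib.P071.LR.NoCritGen
import Vale.Agent.Lib.P071.LR.RectOps
import Vale.Agent.Lib.P071.LR.Extremum
import Vale.Agent.Lib.P071.LR.Final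

namespace Vale.Agent.Lib.P071.LR

open Set MeasureTheory Real Filter Topology
open Vale.Agent.Lib.P071

/-- A continuous function positive on the open interval is nonnegative on the closed one. -/
lemma FinalGen_nonneg_closure {t₁ t₂ : ℝ} (ht : t₁ < t₂) {h : ℝ → ℝ} (hh : Continuous h)
    (hpos : ∀ s ∈ Ioo t₁ t₂, 0 < h s) : ∀ s ∈ Icc t₁ t₂, 0 ≤ h s := by
  intro s hs
  have hcl : s ∈ closure (Ioo t₁ t₂) := by rw [closure_Ioo ht.ne]; exact hs
  exact le_on_closure (f := fun _ => (0:ℝ)) (g := h) (fun r hr => (hpos r hr).le)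
    continuousOn_const hh.continuousOn hcl

/-- **Strict hot spots on a rectangle with an arbitrary separated weight.** A nonzero solution of
`u_xx + u_yy = -μ (f x + g y) u` on `[x₁,x₂] × [y₁,y₂]` with Neumann conditions, where `f`, `g` are
continuous, `f + g > 0` on the rectangle except possibly at its four corners, and `μ > 0` is at
most the first positive Neumann eigenvalue (`RayleighMin2`), has no interior critical point and
takes at every interior point a value strictly between two of its boundary values. No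
monotonicity or symmetry of `f`, `g` is assumed. -/
theorem hot_spots_separable {x₁ x₂ y₁ y₂ μ : ℝ} (hx : x₁ < x₂) (hy : y₁ < y₂) (hμ : 0 < μ)
    {f g : ℝ → ℝ} (hf : Continuous f) (hg : Continuous g)
    (hpos : ∀ x ∈ Icc x₁ x₂, ∀ y ∈ Icc y₁ y₂, (x ∈ Ioo x₁ x₂ ∨ y ∈ Ioo y₁ y₂) → 0 < f x + g y)
    {u : ℝ × ℝ → ℝ} (hu : ContDiff ℝ 2 u)
    (hpde : ∀ x ∈ Icc x₁ x₂, ∀ y ∈ Icc y₁ y₂,
        deriv (fun s => deriv (fun r => u (r, y)) s) x
          + deriv (fun s => deriv (fun r => u (x, r)) s) y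
            = -(μ * (f x + g y)) * u (x, y))
    (hN₁ : ∀ y ∈ Icc y₁ y₂,
        deriv (fun r => u (r, y)) x₁ = 0 ∧ deriv (fun r => u (r, y)) x₂ = 0)
    (hN₂ : ∀ x ∈ Icc x₁ x₂,
        deriv (fun r => u (x, r)) y₁ = 0 ∧ deriv (fun r => u (x, r)) y₂ = 0)
    (hne : ∃ x ∈ Icc x₁ x₂, ∃ y ∈ Icc y₁ y₂, u (x, y) ≠ 0)
    (hmin : RayleighMin2 x₁ x₂ y₁ y₂ μ f g) :
    ∀ x ∈ Ioo x₁ x₂, ∀ y ∈ Ioo y₁ y₂,
      ¬ (deriv (fun r => u (r, y)) x = 0 ∧ deriv (fun r => u (x, r)) y = 0) ∧
      ∃ p q : ℝ × ℝ,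
        (p.1 ∈ Icc x₁ x₂ ∧ p.2 ∈ Icc y₁ y₂ ∧ (p.1 = x₁ ∨ p.1 = x₂ ∨ p.2 = y₁ ∨ p.2 = y₂)) ∧
        (q.1 ∈ Icc x₁ x₂ ∧ q.2 ∈ Icc y₁ y₂ ∧ (q.1 = x₁ ∨ q.1 = x₂ ∨ q.2 = y₁ ∨ q.2 = y₂)) ∧
        u p < u (x, y) ∧ u (x, y) < u q := by
  have hpc : Continuous (fun x => μ * f x) := continuous_const.mul hf
  have hqc : Continuous (fun y => μ * g y) := continuous_const.mul hg
  -- midpoints
  have hxc : (x₁ + x₂) / 2 ∈ Ioo x₁ x₂ := ⟨by linarith, by linarith⟩
  have hyc : (y₁ + y₂) / 2 ∈ Ioo y₁ y₂ := ⟨by linarith, by linarith⟩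
  have hxcI : (x₁ + x₂) / 2 ∈ Icc x₁ x₂ := Ioo_subset_Icc_self hxc
  have hycI : (y₁ + y₂) / 2 ∈ Icc y₁ y₂ := Ioo_subset_Icc_self hyc
  -- the weight is nonnegative on the closed rectangle
  have hnn : ∀ x ∈ Icc x₁ x₂, ∀ y ∈ Icc y₁ y₂, 0 ≤ f x + g y := by
    intro x hx' y hy'
    exact FinalGen_nonneg_closure hy (h := fun s => f x + g s) (continuous_const.add hg)
      (fun s hs => hpos x hx' s (Ioo_subset_Icc_self hs) (Or.inr hs)) y hy'
  -- minimisers of the two weights
  obtain ⟨xm, hxm, hxmin'⟩ := isCompact_Icc.exists_isMinOn (nonempty_Icc.2 hx.le) hf.continuousOn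
  obtain ⟨ym, hym, hymin'⟩ := isCompact_Icc.exists_isMinOn (nonempty_Icc.2 hy.le) hg.continuousOn
  have hxmin : ∀ t ∈ Icc x₁ x₂, f xm ≤ f t := fun t ht => isMinOn_iff.1 hxmin' t ht
  have hymin : ∀ t ∈ Icc y₁ y₂, g ym ≤ g t := fun t ht => isMinOn_iff.1 hymin' t ht
  -- the solution in slice form
  obtain ⟨ux, uxx, uy, uyy, hR⟩ := rectSol_of_contDiff (p := fun x => μ * f x)
    (q := fun y => μ * g y) (x₁ := x₁) (x₂ := x₂) (y₁ := y₁) (y₂ := y₂) hu
    (by
      intro x hx' y hy'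
      rw [hpde x hx' y hy']
      ring) hN₁ hN₂
  -- ground states
  obtain ⟨κ, Y, Y', Y'', hY, hYpos⟩ := exists_ground_state hy hqc
  obtain ⟨σ, X, X', X'', hX, hXpos⟩ := exists_ground_state hx hpc
  have hQy : ∀ s ∈ Icc y₁ y₂, 0 ≤ μ * g s + -(μ * g ym) := by
    intro s hs
    have := mul_le_mul_of_nonneg_left (hymin s hs) hμ.le
    linarith
  have hQx : ∀ s ∈ Icc x₁ x₂, 0 ≤ μ * f s + -(μ * f xm) := by
    intro s hs
    have := mul_le_mul_of_nonneg_left (hxmin s hs) hμ.le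
    linarith
  have G1 : 0 ≤ -(μ * g ym) - κ := ground_le hy hqc hY hYpos (e := -(μ * g ym)) hQy
  have G2 : 0 ≤ -(μ * f xm) - σ := ground_le hx hpc hX hXpos (e := -(μ * f xm)) hQx
  -- strict positivity of the two shifted coefficients
  have hκ : ∀ t ∈ Icc x₁ x₂, 0 < μ * f t - κ := by
    intro t ht
    by_cases hconst : ∀ s ∈ Icc y₁ y₂, g s = g ym
    · have h1 := hpos t ht _ hycI (Or.inr hyc)
      rw [hconst _ hycI] at h1
      have h2 := mul_pos hμ h1
      linarith
    · have hconst' : ∃ s, s ∈ Icc y₁ y₂ ∧ g s ≠ g ym := by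
        by_contra hcon
        exact hconst (fun s hs => by
          by_contra hne'
          exact hcon ⟨s, hs, hne'⟩)
      obtain ⟨s₀, hs₀, hs₀ne⟩ := hconst'
      have hlt : g ym < g s₀ := lt_of_le_of_ne (hymin s₀ hs₀) (Ne.symm hs₀ne)
      have hstrict : 0 < -(μ * g ym) - κ :=
        ground_lt_of_exists hy hqc hY hYpos (e := -(μ * g ym)) hQy
          ⟨s₀, hs₀, by have := mul_lt_mul_of_pos_left hlt hμ; linarith⟩
      have h2 := mul_nonneg hμ.le (hnn t ht ym hym)
      linarith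
  have hσ : ∀ t ∈ Icc y₁ y₂, 0 < μ * g t - σ := by
    intro t ht
    by_cases hconst : ∀ s ∈ Icc x₁ x₂, f s = f xm
    · have h1 := hpos _ hxcI t ht (Or.inl hxc)
      rw [hconst _ hxcI] at h1
      have h2 := mul_pos hμ h1
      linarith
    · have hconst' : ∃ s, s ∈ Icc x₁ x₂ ∧ f s ≠ f xm := by
        by_contra hcon
        exact hconst (fun s hs => by
          by_contra hne'
          exact hcon ⟨s, hs, hne'⟩)
      obtain ⟨s₀, hs₀, hs₀ne⟩ := hconst'
      have hlt : f xm < f s₀ := lt_of_le_of_ne (hxmin s₀ hs₀) (Ne.symm hs₀ne)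
      have hstrict : 0 < -(μ * f xm) - σ :=
        ground_lt_of_exists hx hpc hX hXpos (e := -(μ * f xm)) hQx
          ⟨s₀, hs₀, by have := mul_lt_mul_of_pos_left hlt hμ; linarith⟩
      have h2 := mul_nonneg hμ.le (hnn xm hxm t ht)
      linarith
  have hA : 0 < μ * f xm - κ := hκ xm hxm
  have hB : 0 < μ * g ym - σ := hσ ym hym
  have hneg : σ + κ < 0 := by linarith
  -- the two constants of the no-critical-point argument
  have hcx : 0 ≤ (μ * f xm - κ) / (μ * g ym - σ) := div_nonneg hA.le hB.le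
  have hcy : 0 ≤ (μ * g ym - σ) / (μ * f xm - κ) := div_nonneg hB.le hA.le
  have hcc : 1 ≤ (μ * f xm - κ) / (μ * g ym - σ) * ((μ * g ym - σ) / (μ * f xm - κ)) := by
    have : (μ * f xm - κ) / (μ * g ym - σ) * ((μ * g ym - σ) / (μ * f xm - κ)) = 1 := by
      field_simp
    rw [this]
  have hBx : ∀ t ∈ Icc x₁ x₂,
      0 ≤ (μ * f t - κ) + (μ * f xm - κ) / (μ * g ym - σ) * (μ * f t + σ) := by
    intro t ht
    have e : (μ * f t - κ) + (μ * f xm - κ) / (μ * g ym - σ) * (μ * f t + σ)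
        = ((μ * g ym - σ) * (μ * f t - κ) + (μ * f xm - κ) * (μ * f t + σ)) / (μ * g ym - σ) := by
      field_simp
    rw [e]
    apply div_nonneg _ hB.le
    have h1 : μ * f xm ≤ μ * f t := mul_le_mul_of_nonneg_left (hxmin t ht) hμ.le
    have h2 : 0 ≤ μ * (f t + g ym) := mul_nonneg hμ.le (hnn t ht ym hym)
    nlinarith [mul_nonneg hB.le (sub_nonneg.2 h1), mul_nonneg hA.le h2]
  have hBy : ∀ t ∈ Icc y₁ y₂,
      0 ≤ (μ * g t - σ) + (μ * g ym - σ) / (μ * f xm - κ) * (μ * g t + κ) := by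
    intro t ht
    have e : (μ * g t - σ) + (μ * g ym - σ) / (μ * f xm - κ) * (μ * g t + κ)
        = ((μ * f xm - κ) * (μ * g t - σ) + (μ * g ym - σ) * (μ * g t + κ)) / (μ * f xm - κ) := by
      field_simp
    rw [e]
    apply div_nonneg _ hA.le
    have h1 : μ * g ym ≤ μ * g t := mul_le_mul_of_nonneg_left (hymin t ht) hμ.le
    have h2 : 0 ≤ μ * (f xm + g t) := mul_nonneg hμ.le (hnn xm hxm t ht)
    nlinarith [mul_nonneg hA.le (sub_nonneg.2 h1), mul_nonneg hB.le h2]
  -- one-dimensional minimality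
  have hM1 : Min1 x₁ x₂ (fun x => μ * f x - κ) X :=
    min1_x hx hy hμ hf hg hmin hX hY hXpos hYpos hneg
  have hM2 : Min1 y₁ y₂ (fun y => μ * g y - σ) Y :=
    min1_y hx hy hμ hf hg hmin hX hY hXpos hYpos hneg
  -- the two modes
  have hA := mode_of_rectSol hy.le hR hY
  have hB := mode_of_rectSol hx.le hR.swap hX
  have hNY : 0 < ∫ y in y₁..y₂, Y y ^ 2 := Final_sq_pos hy hY.cont hYpos
  have hNX : 0 < ∫ x in x₁..x₂, X x ^ 2 := Final_sq_pos hx hX.cont hXpos
  have hIX : 0 < ∫ x in x₁..x₂, X x := Final_int_pos hx hX.cont hXpos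
  have hIY : 0 < ∫ y in y₁..y₂, Y y := Final_int_pos hy hY.cont hYpos
  have ha := NeumannMode.smul hA (1 / ∫ y in y₁..y₂, Y y ^ 2)
  have hb := NeumannMode.smul hB (1 / ∫ x in x₁..x₂, X x ^ 2)
  set a : ℝ → ℝ := fun x => (1 / ∫ y in y₁..y₂, Y y ^ 2) * ∫ y in y₁..y₂, u (x, y) * Y y
    with ha_def
  set a' : ℝ → ℝ := fun x => (1 / ∫ y in y₁..y₂, Y y ^ 2) * ∫ y in y₁..y₂, ux x y * Y y
    with ha'_def
  set b : ℝ → ℝ := fun y => (1 / ∫ x in x₁..x₂, X x ^ 2) * ∫ x in x₁..x₂, u (x, y) * X x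
    with hb_def
  set b' : ℝ → ℝ := fun y => (1 / ∫ x in x₁..x₂, X x ^ 2) * ∫ x in x₁..x₂, uy x y * X x
    with hb'_def
  -- the remainder solves the equation
  have hR1 := rectSol_prod (p := fun x => μ * f x) (q := fun y => μ * g y) ha hY
    (by intro x _ y _; ring)
  have hR2 := rectSol_prod (p := fun x => μ * f x) (q := fun y => μ * g y) hX hb
    (by intro x _ y _; ring)
  have hRr := (hR.sub hR1).sub hR2
  -- orthogonality of the modes to the ground states
  have hAX : ∫ x in x₁..x₂, (∫ y in y₁..y₂, u (x, y) * Y y) * X x = 0 :=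
    mode_orth hx.le (c := κ + σ) (by linarith) hA hX (by intro t _; ring)
  have hBY : ∫ y in y₁..y₂, (∫ x in x₁..x₂, u (x, y) * X x) * Y y = 0 :=
    mode_orth hy.le (c := σ + κ) (by linarith) hB hY (by intro t _; ring)
  have haX : ∫ x in x₁..x₂, a x * X x = 0 := by
    have e : ∀ x, a x * X x
        = (1 / ∫ y in y₁..y₂, Y y ^ 2) * ((∫ y in y₁..y₂, u (x, y) * Y y) * X x) := fun x => by
      simp only [ha_def]; ring
    rw [intervalIntegral.integral_congr (fun x _ => e x), intervalIntegral.integral_const_mul,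
      hAX, mul_zero]
  have hbY : ∫ y in y₁..y₂, b y * Y y = 0 := by
    have e : ∀ y, b y * Y y
        = (1 / ∫ x in x₁..x₂, X x ^ 2) * ((∫ x in x₁..x₂, u (x, y) * X x) * Y y) := fun y => by
      simp only [hb_def]; ring
    rw [intervalIntegral.integral_congr (fun y _ => e y), intervalIntegral.integral_const_mul,
      hBY, mul_zero]
  have hucx : ∀ y, Continuous (fun x => u (x, y)) := fun y =>
    hu.continuous.comp (continuous_id.prodMk continuous_const)
  have hucy : ∀ x, Continuous (fun y => u (x, y)) := fun x =>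
    hu.continuous.comp (continuous_const.prodMk continuous_id)
  have h1 : ∀ y ∈ Icc y₁ y₂,
      ∫ x in x₁..x₂, (u (x, y) - a x * Y y - X x * b y) * X x = 0 := by
    intro y _
    have e : ∀ x, (u (x, y) - a x * Y y - X x * b y) * X x
        = (u (x, y) - Y y * a x - b y * X x) * X x := fun x => by ring
    rw [intervalIntegral.integral_congr (fun x _ => e x),
      Final_slice_int (Y y) (b y) (hucx y) ha.cont hX.cont hX.cont, haX]
    have e2 : ∫ x in x₁..x₂, X x * X x = ∫ x in x₁..x₂, X x ^ 2 := by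
      congr 1; funext x; ring
    rw [e2]
    simp only [hb_def]
    field_simp
    ring
  have h2 : ∀ x ∈ Icc x₁ x₂,
      ∫ y in y₁..y₂, (u (x, y) - a x * Y y - X x * b y) * Y y = 0 := by
    intro x _
    rw [Final_slice_int (a x) (X x) (hucy x) hY.cont hb.cont hY.cont, hbY]
    have e2 : ∫ y in y₁..y₂, Y y * Y y = ∫ y in y₁..y₂, Y y ^ 2 := by
      congr 1; funext y; ring
    rw [e2]
    simp only [ha_def]
    field_simp
    ring
  have hzero := rect_vanish hx hy hpc hqc hRr hM1 hM2 hneg h1 h2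
  have hrep : ∀ x ∈ Icc x₁ x₂, ∀ y ∈ Icc y₁ y₂, u (x, y) = a x * Y y + X x * b y := by
    intro x hx' y hy'
    have := hzero x hx' y hy'
    linarith
  -- derivatives at interior points
  have hux : ∀ x ∈ Ioo x₁ x₂, ∀ y ∈ Icc y₁ y₂, ux x y = a' x * Y y + X' x * b y := by
    intro x hx' y hy'
    have d1 : HasDerivAt (fun t => u (t, y)) (ux x y) x := hR.dx x y
    have d2 : HasDerivAt (fun t => a t * Y y + X t * b y) (a' x * Y y + X' x * b y) x :=
      ((ha.d1 x).mul_const _).add ((hX.d1 x).mul_const _)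
    have hev : (fun t => u (t, y)) =ᶠ[𝓝 x] fun t => a t * Y y + X t * b y := by
      filter_upwards [Ioo_mem_nhds hx'.1 hx'.2] with t ht
      exact hrep t (Ioo_subset_Icc_self ht) y hy'
    exact d1.unique (d2.congr_of_eventuallyEq hev)
  have huy : ∀ x ∈ Icc x₁ x₂, ∀ y ∈ Ioo y₁ y₂, uy x y = a x * Y' y + X x * b' y := by
    intro x hx' y hy'
    have d1 : HasDerivAt (fun t => u (x, t)) (uy x y) y := hR.dy x y
    have d2 : HasDerivAt (fun t => a x * Y t + X x * b t) (a x * Y' y + X x * b' y) y :=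
      ((hY.d1 y).const_mul _).add ((hb.d1 y).const_mul _)
    have hev : (fun t => u (x, t)) =ᶠ[𝓝 y] fun t => a x * Y t + X x * b t := by
      filter_upwards [Ioo_mem_nhds hy'.1 hy'.2] with t ht
      exact hrep x hx' t (Ioo_subset_Icc_self ht)
    exact d1.unique (d2.congr_of_eventuallyEq hev)
  -- monotonicity of the modes
  have hPx : ∀ t ∈ Ioc x₁ x₂, 0 < μ * f t - κ := fun t ht => hκ t (Ioc_subset_Icc_self ht)
  have hPy : ∀ t ∈ Ioc y₁ y₂, 0 < μ * g t - σ := fun t ht => hσ t (Ioc_subset_Icc_self ht)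
  have hacase : (∀ t ∈ Icc x₁ x₂, a t = 0) ∨ (∀ t ∈ Ioo x₁ x₂, a' t ≠ 0) := by
    by_cases h : ∀ t ∈ Icc x₁ x₂, a t = 0
    · exact Or.inl h
    · right
      intro t ht h0
      exact h (mode_deriv_ne_zero hx hpc hX.cont hPx hIX.ne' hM1 ha ht h0)
  have hbcase : (∀ t ∈ Icc y₁ y₂, b t = 0) ∨ (∀ t ∈ Ioo y₁ y₂, b' t ≠ 0) := by
    by_cases h : ∀ t ∈ Icc y₁ y₂, b t = 0
    · exact Or.inl h
    · right
      intro t ht h0
      exact h (mode_deriv_ne_zero hy hqc hY.cont hPy hIY.ne' hM2 hb ht h0)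
  -- no interior critical point
  have hno : ∀ x ∈ Ioo x₁ x₂, ∀ y ∈ Ioo y₁ y₂, ¬ (ux x y = 0 ∧ uy x y = 0) := by
    intro x hx' y hy' hcrit
    have hxI : x ∈ Icc x₁ x₂ := Ioo_subset_Icc_self hx'
    have hyI : y ∈ Icc y₁ y₂ := Ioo_subset_Icc_self hy'
    have e1 : a' x * Y y + X' x * b y = 0 := by
      rw [← hux x hx' y hyI]; exact hcrit.1
    have e2 : a x * Y' y + X x * b' y = 0 := by
      rw [← huy x hxI y hy']; exact hcrit.2
    rcases hacase with haz | hanz
    · rcases hbcase with hbz | hbnz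
      · obtain ⟨s, hs, t, ht, hst⟩ := hne
        apply hst
        rw [hrep s hs t ht, haz s hs, hbz t ht]
        ring
      · rw [haz x hxI, zero_mul, zero_add] at e2
        rcases mul_eq_zero.1 e2 with h | h
        · exact (hXpos x hxI).ne' h
        · exact hbnz y hy' h
    · rcases hbcase with hbz | hbnz
      · rw [hbz y hyI, mul_zero, add_zero] at e1
        rcases mul_eq_zero.1 e1 with h | h
        · exact hanz x hx' h
        · exact (hYpos y hyI).ne' h
      · have hid : (a' x * X x) * (b' y * Y y) = (X' x * a x) * (Y' y * b y) := by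
          linear_combination (X x * b' y) * e1 - (X' x * b y) * e2
        have ha2 := NeumannMode.smul ha (-1)
        have hb2 := NeumannMode.smul hb (-1)
        rcases sign_const_of_ne_zero ha.cont' hx hanz with hap | han
        · rcases sign_const_of_ne_zero hb.cont' hy hbnz with hbp | hbn
          · exact no_crit_gen hx hy hpc hqc hneg hcx hcy hcc hBx hBy ha2 hX hb2 hY hXpos hYpos
              (fun s hs => by have := hap s hs; linarith)
              (fun s hs => by have := hbp s hs; linarith) hx' hy'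
              (by linear_combination hid)
          · exact no_crit_gen hx hy hpc hqc hneg hcx hcy hcc hBx hBy ha2 hX hb hY hXpos hYpos
              (fun s hs => by have := hap s hs; linarith) hbn hx' hy'
              (by linear_combination (-1 : ℝ) * hid)
        · rcases sign_const_of_ne_zero hb.cont' hy hbnz with hbp | hbn
          · exact no_crit_gen hx hy hpc hqc hneg hcx hcy hcc hBx hBy ha hX hb2 hY hXpos hYpos
              han (fun s hs => by have := hbp s hs; linarith) hx' hy'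
              (by linear_combination (-1 : ℝ) * hid)
          · exact no_crit_gen hx hy hpc hqc hneg hcx hcy hcc hBx hBy ha hX hb hY hXpos hYpos
              han hbn hx' hy' hid
  intro x hx' y hy'
  obtain ⟨p, q, hp, hq, h3, h4⟩ :=
    extremum_boundary hx hy (U := fun x y => u (x, y)) hR.cu hR.dx hR.dy hno x hx' y hy'
  refine ⟨?_, p, q, hp, hq, h3, h4⟩
  have hdx : deriv (fun r => u (r, y)) x = ux x y := (hR.dx x y).deriv
  have hdy : deriv (fun r => u (x, r)) y = uy x y := (hR.dy x y).deriv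
  rw [hdx, hdy]
  exact hno x hx' y hy'

end Vale.Agent.Lib.P071.LR
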